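import Crest.Agent.N250.R0.Stm
import Crest.Agent.N250.Wr.Geo
import Crest.Agent.N250.Wt.Grn
import Crest.Agent.N250.Nq.Defs
import Crest.Agent.N250.Ch.Op
import Crest.Agent.N250.Ec.Dat
import Crest.Agent.N250.Gi.Wf
import Crest.Agent.N250.Gl.Out
import Crest.Agent.N250.B1.Sm3
import Crest.Agent.N250.B1.DrS
import Crest.Agent.N250.Cj.Pol
import Crest.Agent.N250.Act.Inst

/-!
# Row 250 (helper54): the glued system, definitions

`St` = shrinker with ends, inner radius `R`, transversal field, charts and end solvers;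
`Fa` = constraint family; all maps of the system are total definitions.
-/

set_option autoImplicit false
open MeasureTheory Set Filter Topology
open scoped InnerProductSpace
open Crest.GeometryTopology.MCF

noncomputable section

namespace Crest.Agent.N250.R0

open WS Wr B1 Gc

/-! ### generic pieces -/

/-- the images `rot β i` of the basis vectors under the rotation with angles `β` -/
def rot (β : Fin 2 → ℂ) : Fin 3 → Fin 3 → ℂ :=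
  ![![Complex.cos (β 0) * Complex.cos (β 1), Complex.sin (β 0) * Complex.cos (β 1), Complex.sin (β 1)],
    ![-Complex.sin (β 0), Complex.cos (β 0), 0],
    ![-(Complex.cos (β 0) * Complex.sin (β 1)), -(Complex.sin (β 0) * Complex.sin (β 1)),
      Complex.cos (β 1)]]

/-- the rotated frame -/
def fR (Q : E ≃ₗᵢ[ℝ] E) (β : Fin 2 → ℂ) (i c : Fin 3) : ℂ := ∑ k, rot β i k * Cj.fQ Q k c

/-- the rotation minus the identity, in ambient coordinates -/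
def Tm (Q : E ≃ₗᵢ[ℝ] E) (β : Fin 2 → ℂ) (a b : Fin 3) : ℂ :=
  ∑ i, (fR Q β i a - Cj.fQ Q i a) * Cj.fQ Q i b

/-- the constants of the end solver (exponents `13/8`, `7/4`) -/
structure Cst where
  ε : ℝ
  ε1 : ℝ
  C : ℝ
  K1 : ℝ
  c0 : ℝ
  ε_pos : 0 < ε
  C_pos : 0 < C
  K1_ge : 1 ≤ K1
  c0_pos : 0 < c0
  small : C * (3 / K1 + ε) ≤ ε1 / 4

/-- the symbol `c |m|` -/
def ell (c : ℝ) : Ell where
  l m := |c| * |(m : ℝ)|
  zero := by simp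
  nonneg m := by positivity
  sub j k := by
    rw [← mul_add]; push_cast
    exact mul_le_mul_of_nonneg_left (abs_add_le _ _) (abs_nonneg c)
  neg m := by simp

/-! ### the setting -/

/-- the setting -/
structure St (S : Mv) where
  P : Prm S
  R : ℝ
  k : Cst
  Z : Fin 3 → P.geo.R
  ψ : Fin P.e.p → ℝ × ℝ → S.sl 0
  U : Par (ell (k.c0 / R)) → Jt (ell (k.c0 / R))
  U0 : Par Ell.triv → Jt Ell.triv
  hR : P.e.R + 7 ≤ R
  ha : P.a = R - 6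
  ha' : P.a' = R + 1
  hb' : P.b' = R + 2
  hψ : ∀ j q, P.e.R < q.1 → (ψ j q : E) = Po.pX (P.e.Q j) (P.e.r j) q
  Zn : ∑ a, Z a * P.geo.n a = 1
  Zs : ∀ a, P.geo.Sy 0 (Z a)
  Zd : ∀ a, P.geo.Sy (-2) (P.geo.ζ * P.geo.S.dr (Z a))
  Zr : ∀ j (p : S.sl 0), ((p : E), (0 : ℝ)) ∈ tube P.e j (R - 5) → ∀ a,
    (Z a).1 p = wv P.e j p a / ⟪S.n (p, 0), wv P.e j p⟫_ℝ
  nu_ge : ∀ j (p : S.sl 0), ((p : E), (0 : ℝ)) ∈ tube P.e j (R - 6) →
    1 / 2 ≤ |⟪S.n (p, 0), wv P.e j p⟫_ℝ|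
  hU : IsEnd R k.K1 (13 / 8) (7 / 4) k.ε k.ε1 k.C _ U
  hU0 : IsEnd R k.K1 (13 / 8) (7 / 4) k.ε k.ε1 k.C _ U0

variable {S : Mv}

namespace St

variable (T : St S)

/-- the ends -/
abbrev e : Ends S := T.P.e

/-- the number of ends -/
abbrev p : ℕ := T.P.e.p

/-- the weighted setting -/
abbrev G : Geo (S.sl 0) := T.P.geo

/-- the symbol -/
abbrev ℓ : Ell := ell (T.k.c0 / T.R)

/-- `0 | 1` at `R + a | R + b` on the tube `j` -/
def cu (j : Fin T.p) (a b : ℝ) : T.G.R :=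
  mkR T.P.shr.reg (fun q => chi T.e j (T.R + a) (T.R + b) q.1)
    (Mv.sm_of_contDiff ((contDiff_chi j _ _).comp contDiff_fst))

/-- `1 | 0` at `R + a | R + b` on every tube -/
def ze (a b : ℝ) : T.G.R :=
  mkR T.P.shr.reg (fun q => zeta T.e (T.R + a) (T.R + b) q.1)
    (Mv.sm_of_contDiff ((contDiff_zeta _ _).comp contDiff_fst))

/-- cut-off of the equation -/
abbrev χ' : T.G.R := T.ze (1 / 10) (1 / 5)

/-- cut-off of the action -/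
abbrev ζA : T.G.R := T.ze (1 / 10) (1 / 3)

/-- cut-off of the end -/
abbrev χ : T.G.R := T.ze (1 / 3) (2 / 3)

/-- cut-off of the rotation -/
abbrev χr (j : Fin T.p) : T.G.R := T.cu j (-3 / 2) (-1)

/-- cut-off of the lift -/
def κ (j : Fin T.p) : T.G.R := T.cu j (1 / 20) (1 / 10) * (1 - T.cu j (2 / 3) (9 / 10))

open Classical in
/-- functions as smooth functions -/
def sm (f : S.sl 0 → ℂ) : T.G.SmC := if h : T.G.M.Sm f then ⟨f, h⟩ else 0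

theorem sm_val {f : S.sl 0 → ℂ} (h : T.G.M.Sm f) : (T.sm f).1 = f := by rw [sm, dif_pos h]

@[simp] theorem sm_coe (f : T.G.SmC) : T.sm f.1 = f := Subtype.ext (T.sm_val f.2)

/-- the radius of the end `j` of `S` -/
def rS (j : Fin T.p) (q : ℝ × ℝ) : ℂ := (T.e.r j q : ℝ)

/-- `r² / 2` -/
def vS (j : Fin T.p) (q : ℝ × ℝ) : ℂ := T.rS j q ^ 2 / 2

/-- `⟨n, ω⟩` -/
def nu (j : Fin T.p) (q : ℝ × ℝ) : ℂ :=
  (⟪S.n (Po.pX (T.e.Q j) (T.e.r j) q, 0), wv T.e j (Po.pX (T.e.Q j) (T.e.r j) q)⟫_ℝ / T.e.r j q : ℝ)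

/-- the radius of the graph of `w` -/
def rW (j : Fin T.p) (w : T.G.SmC) (q : ℝ × ℝ) : ℂ := T.rS j q + w.1 (T.ψ j q) / T.nu j q

/-- its `r² / 2` -/
def vW (j : Fin T.p) (w : T.G.SmC) (q : ℝ × ℝ) : ℂ := T.rW j w q ^ 2 / 2

/-- rotation parameters -/
abbrev Bt : Type := Fin T.p × Fin 2 → ℂ

/-- the rotation matrices minus the identity -/
def TT (β : T.Bt) : Nq.Mt (Fin T.p) := fun j => Tm (T.e.Q j) fun i => β (j, i)

/-- the Gaussian area density of `Y` -/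
def dens (Y : Fin 3 → T.G.SmC) (p : S.sl 0) : ℂ :=
  Complex.exp (-(dot Y Y).1 p / 4) * Complex.sqrt ((T.G.SC.GX Y).1 p)

/-- the action of the core -/
def AC (Y : Fin 3 → T.G.SmC) : ℂ := ∫ p, (T.ζA.1 p : ℂ) * T.dens Y p ∂T.G.M.mu

/-- the pairing with `φ` -/
def IP (φ : T.G.R) (w : T.G.SmC) (Y : Fin 3 → T.G.SmC) : ℂ :=
  ∫ p, (φ.1 p : ℂ) * w.1 p * T.dens Y p ∂T.G.M.mu

/-! ### the ends -/

/-- the inner datum of the end `j` of `S` -/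
def b0 (j : Fin T.p) : Wi (omP 2) := Ec.four 2 fun θ => T.vS j (T.R, θ) - 1

/-- parameters of the end `j` -/
def zz (j : Fin T.p) (X a h : ℂ) (b : Wi (omP 2)) : Par T.ℓ := (X, a, wd (T.b0 j + b) h)

/-- the end function on the strip `R ≤ x ≤ R + 1` -/
def vU (z : Par T.ℓ) : ℝ × ℝ → ℂ := B1.vS T.R z (T.U z)

/-- the graph function of `v` over the end `j` -/
def gE (j : Fin T.p) (v : ℝ × ℝ → ℂ) (q : ℝ × ℝ) : ℂ :=
  ((2 * v q) ^ (1 / 2 : ℂ) - T.rS j q) * T.nu j q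

/-- its lift -/
def uE (j : Fin T.p) (v : ℝ × ℝ → ℂ) : T.G.SmC :=
  EC.lift T.G (T.e.Q j) (T.G.oR (T.κ j)) (T.gE j v)

/-- the source -/
def sE (j : Fin T.p) (v : ℝ × ℝ → ℂ) : T.G.SmC :=
  T.G.oR T.G.ρ * (T.G.SC.LL (T.G.oR T.χ * T.uE j v) - T.G.oR T.χ' * T.G.SC.LL (T.uE j v))

/-- the slow modes `-1, 0, 1` at `x = R` -/
def mE (j : Fin T.p) (v : ℝ × ℝ → ℂ) (i : Fin 3) : ℂ :=
  Ra.fc (fun θ => v (T.R, θ) - T.vS j (T.R, θ)) ((i : ℤ) - 1)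

/-- the cut-off of the end action -/
def cA (s : ℝ) : ℂ := (st (T.R + 1 / 10) (T.R + 1 / 3) (T.R + 2 * s) : ℝ)

/-- the action of an end -/
def AE (z : Par T.ℓ) : ℂ := Act.actC T.cA T.R z.1 z.2.1 (T.U z)

/-- boundary data -/
abbrev BB : Type := Fin T.p → Wi (omP 2)

variable (σ : Scale T.G)

/-- values of one end map -/
abbrev W1 : Type := σ.AA × (Fin 3 → ℂ)

/-- values of the end map -/
abbrev WW : Type := Fin T.p → T.W1 σ

/-- what the core sees of a function on the strip -/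
def eV (j : Fin T.p) (v : ℝ × ℝ → ℂ) : T.W1 σ := (EC.toA σ (T.sE j v), T.mE j v)

/-- the end map of the end `j` -/
def e1 (j : Fin T.p) (X a h : ℂ) (b : Wi (omP 2)) : T.W1 σ :=
  T.eV σ j (T.vU (T.zz j X a h b))

/-- the end map -/
def eM (N : ℕ) (X : ℂ) (a : Fin T.p → ℂ) (b : T.BB) : T.WW σ :=
  fun j => T.e1 σ j X (a j) (Gi.hN N X (a j)) (b j)

end St

/-! ### the system -/

/-- the constraint family -/
structure Fa (T : St S) where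
  n : ℕ
  φ : Fin n ⊕ Fin T.p → T.G.R
  fam : T.G.Fam φ
  grn : T.G.GrnS φ
  supp : ∀ k, ∀ p ∈ tsupport (φ k).1, ‖(p : E)‖ ≤ T.R - 1 ∧
    ∀ j, ((p : E), (0 : ℝ)) ∉ tube T.e j (T.R - 2)

namespace Fa

variable {T : St S} (F : Fa T) (σ : Scale T.G)

/-- indices -/
abbrev I : Type := Fin F.n ⊕ Fin T.p

/-- unknowns `(f, η, β)` -/
abbrev Ξ : Type := σ.AA × (F.I → ℂ) × T.Bt

/-- equations -/
abbrev HH : Type := σ.AA × (Fin F.n → ℂ) × (Fin T.p × Fin 3 → ℂ)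

/-- the data of the nonlinearity -/
def D : Nq.Dt T.G (Fin T.p) F.I := ⟨T.Z, T.χr, F.φ, T.χ'⟩

variable {σ}

/-- the graph function -/
def w (ξ : F.Ξ σ) : T.G.SmC := σ.wG F.φ (ξ.1, ξ.2.1)

/-- the multipliers -/
def c (ξ : F.Ξ σ) : F.I → ℂ := -σ.cG F.φ (ξ.1, ξ.2.1)

/-- the surface `M (x + w Z)` -/
def Y (ξ : F.Ξ σ) : Fin 3 → T.G.SmC := F.D.Xh (F.w ξ) (T.TT ξ.2.2)

/-- the equation -/
def EQ (ξ : F.Ξ σ) : S.sl 0 → ℂ := F.D.EQ (F.w ξ) (T.TT ξ.2.2) (F.c ξ)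

/-- `χ' (ρ EQ + f)` -/
def nl (ξ : F.Ξ σ) (p : S.sl 0) : ℂ :=
  (T.χ'.1 p : ℂ) * ((T.G.ρ.1 p : ℂ) * F.EQ ξ p + (σ.val ξ.1).1 p)

/-- the nonlinearity -/
def NL (ξ : F.Ξ σ) : σ.AA := EC.toA σ (T.sm (F.nl ξ))

/-- the pairings -/
def II (ξ : F.Ξ σ) (k : F.I) : ℂ := T.IP (F.φ k) (F.w ξ) (F.Y ξ)

/-- the boundary data -/
def dat (ξ : F.Ξ σ) : T.BB := fun j =>
  Ec.four 2 fun θ => T.vW j (F.w ξ) (T.R, θ) - T.vS j (T.R, θ)

/-- the system -/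
def Φ (u : F.Ξ σ × (Fin F.n → ℂ) × T.WW σ) : F.HH σ :=
  (u.1.1 - F.NL u.1 - ∑ j, (u.2.2 j).1, fun k => F.II u.1 (.inl k) - u.2.1 k,
    fun q => Wi.co (F.dat u.1 q.1) ((q.2 : ℤ) - 1) - (u.2.2 q.1).2 q.2)

/-- parameters of the end `j` at the unknown `ξ` -/
def zE (N : ℕ) (X : ℂ) (a : Fin T.p → ℂ) (ξ : F.Ξ σ) (j : Fin T.p) : Par T.ℓ :=
  T.zz j X (a j) (Gi.hN N X (a j)) (F.dat ξ j)

/-- the action without the far term -/
def AT (N : ℕ) (X : ℂ) (a : Fin T.p → ℂ) (ξ : F.Ξ σ) : ℂ :=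
  T.AC (F.Y ξ) + ∑ j, T.AE (F.zE N X a ξ j)

/-- `ξ` solves the glued problem -/
structure Sv (N : ℕ) (X : ℂ) (y : Fin F.n → ℂ) (a : Fin T.p → ℂ) (ξ : F.Ξ σ) : Prop where
  dom : ∀ j, F.zE N X a ξ j ∈ Dom T.R T.k.K1 (13 / 8) (7 / 4) T.k.ε
  eq : F.Φ (ξ, y, T.eM σ N X a (F.dat ξ)) = 0

/-- conjugation of unknowns -/
def cj (ξ : F.Ξ σ) : F.Ξ σ := (σ.cj ξ.1, star ξ.2.1, star ξ.2.2)

end Fa

end Crest.Agent.N250.R0

end
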