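import Crest.Agent.N250.R.One
import Crest.Agent.N250.Gi.Defs

/-!
# Row 250 (helper90): from the gluing to the family of models, finite dimensional statements

Points `w : ι ⊕ κ → ℂ`: `inl` = prescribed pairings `y`, `inr j` = far parameter `a'_j` of the end `j`.
`Glued` (output of the gluing), `RealM` (its real points are models), `Gi.Fx`, `Xi` (intrinsic coordinates),
`famS_of`.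
-/

set_option autoImplicit false
open MeasureTheory Set Filter Topology
open scoped ContDiff
open Crest.GeometryTopology.MCF

noncomputable section

namespace Crest.Agent.N250.R0

open Crest.Agent.N250.B2 (aa ofR)
open Crest.Agent.N250.Gi (KK hat TL DX Fx ConclX)

variable {ι κ : Type}

/-- replace the end parameters -/
def mk (z : ι ⊕ κ → ℂ) (a : κ → ℂ) : ι ⊕ κ → ℂ := Sum.elim (fun i => z (Sum.inl i)) a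

/-- admissible points for the real cut `X` -/
def DomA (r K X : ℝ) : Set (ι ⊕ κ → ℂ) :=
  {w | (∀ i, ‖w (Sum.inl i)‖ < r) ∧ ∀ j, B1.Adm K X (w (Sum.inr j))}

/-- the domain of the glued family (complex cut) -/
def Om (r K X0 θ : ℝ) : Set (ℂ × (ι ⊕ κ → ℂ)) :=
  {q | X0 < q.1.re ∧ |q.1.im| < θ / q.1.re ∧ q.2 ∈ DomA r K q.1.re}

/-- the renormalised point -/
def hz (X : ℝ) (w : ι ⊕ κ → ℂ) : ι ⊕ κ → ℂ := mk w fun j => hat X (w (Sum.inr j))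

variable [Fintype ι] [Fintype κ]

/-- OUTPUT OF THE GLUING. `FF` = action `- 2π ∑ S_N`, `Z` = all pairings, `cc` = multipliers,
`Θ` = the pairings for the limit ends, `A0` = action of the shrinker. `C0` is independent of `N`. -/
structure Glued (N : ℕ) (C0 : ℝ) (FF : ℂ × (ι ⊕ κ → ℂ) → ℂ) (Z cc : ℂ × (ι ⊕ κ → ℂ) → ι ⊕ κ → ℂ)
    (Θ : (ι ⊕ κ → ℂ) → ι ⊕ κ → ℂ) (A0 r X0 θ C k : ℝ) : Prop where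
  r_pos : 0 < r
  θ_pos : 0 < θ
  k_pos : 0 < k
  hF : DifferentiableOn ℂ FF (Om r (KK N) X0 θ)
  hZ : DifferentiableOn ℂ Z (Om r (KK N) X0 θ)
  bd : ∀ q ∈ Om r (KK N) X0 θ, ‖FF q‖ ≤ C ∧ ‖Z q‖ ≤ C
  inl : ∀ q ∈ Om r (KK N) X0 θ, ∀ i, Z q (Sum.inl i) = q.2 (Sum.inl i)
  real : ∀ X : ℝ, X0 < X → ∀ x : ι ⊕ κ → ℝ, ofR x ∈ DomA r (KK N) X →
    (FF (X, ofR x)).im = 0 ∧ ∀ l, (Z (X, ofR x) l).im = 0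
  form : ∀ X : ℝ, X0 < X → ∀ w ∈ DomA r (KK N) X, ∀ (ξ : ℂ) (v : ι ⊕ κ → ℂ),
    ‖fderiv ℂ FF (X, w) (ξ, v) - ∑ l, cc (X, w) l * fderiv ℂ Z (X, w) (ξ, v) l +
        2 * Real.pi * ξ * ∑ j, HJ.R N X (B1.et (w (Sum.inr j)) X)‖ ≤
      Fintype.card κ * C * Real.exp (-X ^ 2 / 4) * X ^ (-(2 + k)) * (‖ξ‖ + X ^ 3 * ‖v‖)
  hΘ : DifferentiableOn ℂ Θ (Metric.ball 0 r)
  Θ_inl : ∀ z ∈ Metric.ball (0 : ι ⊕ κ → ℂ) r, ∀ i, Θ z (Sum.inl i) = z (Sum.inl i)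
  Θ_zero : Θ 0 = 0
  Θ_real : ∀ x : ι ⊕ κ → ℝ, ‖x‖ < r → ∀ l, (Θ (ofR x) l).im = 0
  jac : ∀ α : κ → ℂ, ‖α‖ ≤ C0 * ‖fderiv ℂ Θ 0 (mk 0 α)‖
  est : ∀ X : ℝ, X0 < X → ∀ w ∈ DomA r (KK N) X,
    ‖Z (X, w) - Θ (hz X w)‖ ≤ (C0 / ((N : ℝ) + 1) + C * X ^ (-k)) / X ^ 4
  base : ∃ a0 : ℝ → κ → ℂ, Tendsto (fun X : ℝ => (X : ℂ) ^ 2 • a0 X) atTop (𝓝 0) ∧
    Tendsto (fun X : ℝ => FF (X, mk (0 : ι ⊕ κ → ℂ) (a0 X))) atTop (𝓝 (A0 : ℂ))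

/-- a constrained critical point of the Gaussian area on `B_ρ`, up to the tolerance `τ` -/
structure Pre (S : Mv) {n : ℕ} (f : Fin n → E → ℝ) (ρ₀ : ℝ) (ζ : Fin n → ℝ) (τ : ℝ) (G : Mv) (ρ : ℝ)
    (c : Fin n → ℝ) : Prop where
  reg : G.Reg
  st : G.Static
  proper : G.Proper (Metric.ball 0 ρ ×ˢ univ)
  reach : ∀ x ∈ G.sl 0, ‖x‖ < ρ → G.Reach (x, 0) ρ₀
  pair : ∀ i, |∫ x, f i x ∂G.mu 0 - ∫ x, f i x ∂S.mu 0 - ζ i| ≤ τ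
  el : ∀ x ∈ G.sl 0, ‖x‖ < ρ → |gau 0 1 x * G.shr (x, 0) - ∑ i, c i * G.fv (f i) (x, 0)| ≤ τ

/-- THE REAL POINTS of the glued family are models on `B_{θ X}` -/
def RealM (S : Mv) {n : ℕ} (f : Fin n → E → ℝ) (σ : Fin n ≃ ι ⊕ κ) (FF : ℂ × (ι ⊕ κ → ℂ) → ℂ)
    (Z cc : ℂ × (ι ⊕ κ → ℂ) → ι ⊕ κ → ℂ) : Prop :=
  ∃ θ ρ₀ C c0 : ℝ, 0 < θ ∧ 0 < ρ₀ ∧ 0 < C ∧ 0 < c0 ∧ ∀ ε : ℝ, 0 < ε → ∃ δ : ℝ, 0 < δ ∧ ∀ X : ℝ, δ⁻¹ < X →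
    ∀ x : ι ⊕ κ → ℝ, ‖x‖ < δ → ‖aa x‖ * X ^ 2 ≤ 1 → ∀ τ : ℝ, 0 < τ → ∃ (G : Mv) (c : Fin n → ℝ),
      Pre S f ρ₀ (fun i => (Z (X, ofR x) (σ i)).re) τ G (θ * X) c ∧ Near G S ε⁻¹ ε ∧
      ‖cc (X, ofR x)‖ ≤ C * ‖c‖ ∧
      ∫⁻ y in Metric.ball 0 (θ * X), ENNReal.ofReal (gau 0 1 y) ∂G.mu 0 ≤
        ENNReal.ofReal ((FF (X, ofR x)).re / (4 * Real.pi) + C * Real.exp (-c0 * X ^ 2))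

/-- how the reduced function is tied to the glued family -/
structure Xi (N : ℕ) (FF : ℂ × (ι ⊕ κ → ℂ) → ℂ) (Z cc : ℂ × (ι ⊕ κ → ℂ) → ι ⊕ κ → ℂ) (A0 : ℝ)
    (f : ℝ → (ι ⊕ κ → ℂ) → ℂ) (al : ℝ → (ι ⊕ κ → ℂ) → κ → ℂ) (Θ : (ι ⊕ κ → ℂ) → ι ⊕ κ → ℂ)
    (r δ X0 C : ℝ) : Prop where
  r_pos : 0 < r
  mem : ∀ X, X0 < X → ∀ z : ι ⊕ κ → ℂ, (∀ i, ‖z (Sum.inl i)‖ < r) → ‖aa z‖ * X ^ 2 ≤ 1 / 2 →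
    z ∈ DX N r δ X ∧ ‖al X z‖ * X ^ 2 ≤ 1
  f_eq : ∀ X, X0 < X → ∀ z ∈ DX N r δ X, f X z = FF (X, mk z (al X z))
  Z_eq : ∀ X, X0 < X → ∀ z ∈ DX N r δ X, Z (X, mk z (al X z)) = Θ z
  onto : ∀ ε : ℝ, 0 < ε → ∃ η : ℝ, 0 < η ∧ ∀ ζ : ι ⊕ κ → ℝ, ‖ζ‖ < η →
    ∃ x : ι ⊕ κ → ℝ, ‖x‖ < ε ∧ Θ (ofR x) = ofR ζ
  alR : ∀ X, X0 < X → ∀ x : ι ⊕ κ → ℝ, ofR x ∈ DX N r δ X → ∀ j, (al X (ofR x) j).im = 0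
  grad : ∀ X, X0 < X → ∀ z ∈ DX N r δ X,
    ‖fderiv ℂ (f X) z‖ ≤ C * (‖cc (X, mk z (al X z))‖ + Real.exp (-X ^ 2 / 5))
  base : Tendsto (fun X => f X 0) atTop (𝓝 (A0 : ℂ))

/-- (R0 + B1) the gluing -/
def GluedS : Prop := ∀ (S : Mv) (Λ : ℝ) (m : Md), Sh S Λ m → ∀ e : Ends S,
  ∃ (C0 : ℝ) (N0 : ℕ), ∀ N, N0 ≤ N → ∃ (q : ℕ) (f : Fin (q + e.p) → E → ℝ)
    (FF : ℂ × (Fin q ⊕ Fin e.p → ℂ) → ℂ) (Z cc : ℂ × (Fin q ⊕ Fin e.p → ℂ) → Fin q ⊕ Fin e.p → ℂ)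
    (Θ : (Fin q ⊕ Fin e.p → ℂ) → Fin q ⊕ Fin e.p → ℂ) (r X0 θ C k : ℝ), Cons S f ∧
      Glued N C0 FF Z cc Θ (4 * Real.pi * S.Fs 0 0 1) r X0 θ C k ∧
      RealM S f finSumFinEquiv.symm FF Z cc

/-- (S10) intrinsic coordinates -/
def XiS : Prop := ∀ C0 : ℝ, ∃ (C1 : ℝ) (N0 : ℕ), ∀ N, N0 ≤ N →
  ∀ (ι κ : Type) [Fintype ι] [Fintype κ] (FF : ℂ × (ι ⊕ κ → ℂ) → ℂ)
    (Z cc : ℂ × (ι ⊕ κ → ℂ) → ι ⊕ κ → ℂ) (Θ : (ι ⊕ κ → ℂ) → ι ⊕ κ → ℂ) (A0 r X0 θ C k : ℝ),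
    Glued N C0 FF Z cc Θ A0 r X0 θ C k →
    ∃ f al r' δ X0' k' C', Fx N C1 f al r' δ X0' k' C' ∧ Xi N FF Z cc A0 f al Θ r' δ X0' C'

/-- (S11 + B2 + L) -/
def GLX : Prop := ∀ (C0 : ℝ) (p : ℕ), ∃ N0 : ℕ, ∀ N, N0 ≤ N →
  ∀ (ι κ : Type) [Fintype ι] [Fintype κ] (f : ℝ → (ι ⊕ κ → ℂ) → ℂ) (al : ℝ → (ι ⊕ κ → ℂ) → κ → ℂ)
    (r δ X0 k C : ℝ), Fintype.card κ = p → Fx N C0 f al r δ X0 k C → ConclX N f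

/-- the choice of the cut -/
def ChainS : Prop := ∀ (S : Mv) (n : ℕ) (g : Fin n → E → ℝ) (ι κ : Type) [Fintype ι] [Fintype κ]
  (σ : Fin n ≃ ι ⊕ κ) (N : ℕ) (FF : ℂ × (ι ⊕ κ → ℂ) → ℂ) (Z cc : ℂ × (ι ⊕ κ → ℂ) → ι ⊕ κ → ℂ)
  (f : ℝ → (ι ⊕ κ → ℂ) → ℂ) (al : ℝ → (ι ⊕ κ → ℂ) → κ → ℂ) (Θ : (ι ⊕ κ → ℂ) → ι ⊕ κ → ℂ)
  (r δ X0 C : ℝ), Cons S g → RealM S g σ FF Z cc →
    Xi N FF Z cc (4 * Real.pi * S.Fs 0 0 1) f al Θ r δ X0 C → ConclX N f → Fam S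

theorem famS_of (hG : GluedS) (hX : XiS) (hL : GLX) (hC : ChainS) : FamS := by
  rintro S Λ m hS ⟨e⟩
  obtain ⟨C0, N0, h0⟩ := hG S Λ m hS e
  obtain ⟨C1, N1, h1⟩ := hX C0
  obtain ⟨N2, h2⟩ := hL C1 e.p
  obtain ⟨q, g, FF, Z, cc, Θ, r, X0, θ, C, k, hc, hg, hr⟩ := h0 (N0 + N1 + N2) (by omega)
  obtain ⟨f, al, r', δ, X0', k', C', hf, hx⟩ :=
    h1 (N0 + N1 + N2) (by omega) _ _ FF Z cc Θ _ r X0 θ C k hg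
  exact hC S _ g _ _ _ _ FF Z cc f al Θ r' δ X0' C' hc hr hx
    (h2 (N0 + N1 + N2) (by omega) _ _ f al r' δ X0' k' C' (by simp) hf)

end Crest.Agent.N250.R0

end
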