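import Crest.Agent.N250.R0.Core
import Crest.Agent.N250.Em.Dr
import Crest.Agent.N250.Gl.Fix
import Crest.Agent.N250.Gi.Gd
import Crest.Agent.N250.Lg.Jac
import Crest.Agent.N250.Ro.Rot
import Crest.Agent.N250.S9.Id
import Crest.Agent.N250.B1.Conj

/-!
# Row 250 (helper54): the glued system, leaf statements

Order of the choices: constants `k`, radius `R` (`Ev`), family `F`, scale `σ` (`Sg`), size `ρ1`, order `N`.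
-/

set_option autoImplicit false
open MeasureTheory Set Filter Topology
open scoped InnerProductSpace ContDiff ComplexConjugate
open Crest.GeometryTopology.MCF

noncomputable section

namespace Crest.Agent.N250.R0

open WS Wr B1 Gc
open Crest.Agent.N250.B2 (aa ofR)
open Crest.Agent.N250.Gi (KK)
open Crest.Agent.N250.Gl (HolAt yy)

variable {S : Mv}

theorem rot_eq : rot = Ro.cm := rfl

theorem fR_eq (Q : E ≃ₗᵢ[ℝ] E) (β : Fin 2 → ℂ) : fR Q β = Ro.rf β (Cj.fQ Q) := rfl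

theorem Tm_eq (Q : E ≃ₗᵢ[ℝ] E) (β : Fin 2 → ℂ) : Tm Q β = Ro.TT (Cj.fQ Q) β := rfl

/-- for small constants and large radius -/
def Ev (e : Ends S) (P : St S → Prop) : Prop :=
  ∃ e0 K0 c1 : ℝ, 0 < e0 ∧ 0 < c1 ∧ ∀ k : Cst, k.ε ≤ e0 → k.ε1 ≤ e0 → K0 ≤ k.K1 → k.c0 ≤ c1 →
    ∃ R1 : ℝ, ∀ T : St S, T.e = e → T.k = k → R1 ≤ T.R → P T

theorem Ev.and {e : Ends S} {P Q : St S → Prop} (h : Ev e P) (h' : Ev e Q) :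
    Ev e fun T => P T ∧ Q T := by
  obtain ⟨a, b, c, ha, hc, h⟩ := h
  obtain ⟨a', b', c', ha', hc', h'⟩ := h'
  refine ⟨min a a', max b b', min c c', lt_min ha ha', lt_min hc hc', fun k h1 h2 h3 h4 => ?_⟩
  obtain ⟨R, h⟩ := h k (h1.trans (min_le_left _ _)) (h2.trans (min_le_left _ _))
    ((le_max_left _ _).trans h3) (h4.trans (min_le_left _ _))
  obtain ⟨R', h'⟩ := h' k (h1.trans (min_le_right _ _)) (h2.trans (min_le_right _ _))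
    ((le_max_right _ _).trans h3) (h4.trans (min_le_right _ _))
  exact ⟨max R R', fun T e1 e2 e3 => ⟨h T e1 e2 ((le_max_left _ _).trans e3),
    h' T e1 e2 ((le_max_right _ _).trans e3)⟩⟩

theorem Ev.mono {e : Ends S} {P Q : St S → Prop} (h : Ev e P) (i : ∀ T, T.e = e → P T → Q T) :
    Ev e Q := by
  obtain ⟨a, b, c, ha, hc, h⟩ := h
  exact ⟨a, b, c, ha, hc, fun k h1 h2 h3 h4 =>
    (h k h1 h2 h3 h4).imp fun _ h T e1 e2 e3 => i T e1 (h T e1 e2 e3)⟩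

theorem Ev.of_forall {e : Ends S} {P : St S → Prop} (h : ∀ T, T.e = e → P T) : Ev e P :=
  ⟨1, 0, 1, one_pos, one_pos, fun _ _ _ _ _ => ⟨0, fun T e1 _ _ => h T e1⟩⟩

theorem Ev.of_R {e : Ends S} (R1 : ℝ) : Ev e fun T => R1 ≤ T.R :=
  ⟨1, 0, 1, one_pos, one_pos, fun _ _ _ _ _ => ⟨R1, fun _ _ _ h => h⟩⟩

theorem Ev.of_ε {e : Ends S} {t : ℝ} (ht : 0 < t) : Ev e fun T => T.k.ε ≤ t ∧ T.k.ε1 ≤ t :=
  ⟨t, 0, 1, ht, one_pos, fun _ h1 h2 _ _ => ⟨0, fun _ _ e2 _ => by subst e2; exact ⟨h1, h2⟩⟩⟩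

/-- for all fast decreasing weights -/
def Sg {T : St S} (P : Scale T.G → Prop) : Prop := ∀ᶠ ε in admF, ∀ σ : Scale T.G, σ.ε = ε → P σ

theorem Sg.and {T : St S} {P Q : Scale T.G → Prop} (h : Sg P) (h' : Sg Q) :
    Sg fun σ => P σ ∧ Q σ :=
  (Eventually.and h h').mono fun _ h σ e => ⟨h.1 σ e, h.2 σ e⟩

theorem Sg.mono {T : St S} {P Q : Scale T.G → Prop} (h : Sg P) (i : ∀ σ, P σ → Q σ) : Sg Q :=
  Eventually.mono h fun _ h σ e => i σ (h σ e)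

theorem Sg.of_forall {T : St S} {P : Scale T.G → Prop} (h : ∀ σ, P σ) : Sg P :=
  Eventually.of_forall fun _ σ _ => h σ

namespace St

variable (T : St S)

/-- the domain of the end solver -/
abbrev Dm : Set (Par T.ℓ) := Dom T.R T.k.K1 (13 / 8) (7 / 4) T.k.ε

/-- what is known about the ends -/
structure Good : Prop where
  fm : ∃ c CD C, Em.Fm T.U T.R T.k.K1 T.k.ε T.k.ε1 T.k.C 6015 c CD C (T.k.c0 / T.R)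
  e1 : T.k.ε1 ≤ 1 / 100
  hb0 : ∀ j, T.R ^ (13 / 8 : ℝ) * ‖T.b0 j‖ < T.k.ε / 2
  idn : ∀ j, ∀ t > 0, ∃ δ > 0, ∀ᶠ X : ℝ in atTop, ∀ a h : ℂ, ‖a‖ * X ^ 2 ≤ δ → X * ‖h‖ ≤ δ →
    ((X : ℂ), a, wd (T.b0 j) h) ∈ T.Dm ∧ ∀ s θ i,
      ‖vj T.R X a (T.U ((X : ℂ), a, wd (T.b0 j) h)) s θ i - S9.jS T.e j (xr T.R X s, θ) i‖ ≤ t
  reg : ∀ z ∈ T.Dm, RegJ T.R z.1 z.2.1 (T.U z) ∧
    ∀ s θ, 2 * vj T.R z.1 z.2.1 (T.U z) s θ 0 ∈ Complex.slitPlane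

/-- the lift of a variation `d` of `v` -/
def uL (j : Fin T.p) (d : ℝ × ℝ → ℂ) : T.G.SmC :=
  EC.lift T.G (T.e.Q j) (T.G.oR (T.κ j)) fun q => d q / T.rS j q * T.nu j q

/-- the linearised source -/
def sL (j : Fin T.p) (d : ℝ × ℝ → ℂ) : T.G.SmC :=
  T.G.oR T.G.ρ * (T.G.SC.LL (T.G.oR T.χ * T.uL j d) - T.G.oR T.χ' * T.G.SC.LL (T.uL j d))

/-- the infinitesimal rotations -/
def m0 (β : T.Bt) : Nq.Mt (Fin T.p) := fun j => Ro.m0 (Cj.fQ (T.e.Q j)) fun i => β (j, i)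

/-- the transversal field -/
def Zv (p : S.sl 0) : E := WithLp.toLp 2 fun a => (T.Z a).1 p

/-- conjugation of data -/
def cB (b : T.BB) : T.BB := fun j => Wi.cj (b j)

variable (σ : Scale T.G)

/-- conjugation of values -/
def cW (w : T.WW σ) : T.WW σ := fun j => (σ.cj (w j).1, fun i => conj ((w j).2 i.rev))

/-- the limit `En` of the end maps -/
structure EnD (En : (Fin T.p → ℂ) × T.BB → T.WW σ) (rb C0 : ℝ) : Prop where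
  rb_pos : 0 < rb
  C0_nonneg : 0 ≤ C0
  hol : HolAt En
  zero : En 0 = 0
  cj : ∀ᶠ z in 𝓝 (0 : (Fin T.p → ℂ) × T.BB), En (star z.1, T.cB z.2) = T.cW σ (En z)
  link : ∀ j, ∃ c A c0 c1 c2, El.Exp (fun X a b => T.e1 σ j X a 0 b) (Em.Ub T.R T.k.ε (T.b0 j))
    c c0 c1 c2 A ∧ ∀ a b, En (a, b) j = c0 (b j) + a j • c1 (b j) + a j ^ 2 • c2 (b j)
  ef : ∀ᶠ N : ℕ in atTop, ∃ X0 θ C k, Gl.EF En T.cB (T.cW σ) rb (KK N - 1 / 4) (C0 / ((N : ℝ) + 1))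
    (fun q => T.eM σ N q.1 q.2) X0 θ C k

/-- its derivative consists of Jacobi fields -/
structure JacD (En : (Fin T.p → ℂ) × T.BB → T.WW σ) : Prop where
  jb : ∀ (b : T.BB) j, ∃ d, Lg.J1 (T.vS j) T.R (b j) d ∧
    σ.val (fderiv ℂ En 0 (0, b) j).1 = T.sL j d ∧
    ∀ i : Fin 3, (fderiv ℂ En 0 (0, b) j).2 i = Lg.bc T.R d ((i : ℤ) - 1)
  jc : ∀ j, ∃ d, Lg.J2 (T.vS j) T.R d ∧ ∀ α : Fin T.p → ℂ,
    σ.val (fderiv ℂ En 0 (α, 0) j).1 = α j • T.sL j d ∧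
    ∀ i : Fin 3, (fderiv ℂ En 0 (α, 0) j).2 i = α j * Lg.bc T.R d ((i : ℤ) - 1)

end St

namespace Fa

variable {T : St S} (F : Fa T) (σ : Scale T.G)

/-- the boundary data -/
structure DatD : Prop where
  syn : ∀ (ξ : F.Ξ σ) j θ, Wi.syn (F.dat ξ j) θ = T.vW j (F.w ξ) (T.R, θ) - T.vS j (T.R, θ)
  hol : HolAt (F.dat (σ := σ))
  zero : F.dat (0 : F.Ξ σ) = 0
  fd : ∀ (ξ : F.Ξ σ) j θ, Wi.syn (fderiv ℂ F.dat 0 ξ j) θ =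
    T.rS j (T.R, θ) / T.nu j (T.R, θ) * (F.w ξ).1 (T.ψ j (T.R, θ))
  cj : ∀ ξ : F.Ξ σ, F.dat (F.cj ξ) = T.cB (F.dat ξ)

/-- the pairings -/
structure IID : Prop where
  hol : HolAt (F.II (σ := σ))
  zero : F.II (0 : F.Ξ σ) = 0
  fd : ∀ ξ : F.Ξ σ, fderiv ℂ F.II 0 ξ = ξ.2.1
  cj : ∀ᶠ ξ in 𝓝 (0 : F.Ξ σ), F.II (F.cj ξ) = star (F.II ξ)

/-- the nonlinearity -/
structure NLD : Prop where
  val : ∀ᶠ ξ in 𝓝 (0 : F.Ξ σ), (σ.val (F.NL ξ)).1 = F.nl ξ ∧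
    ∀ p, T.G.ζ.1 p = 1 → F.D.Nd (F.w ξ) (T.TT ξ.2.2) (F.c ξ) p
  hol : HolAt (F.NL (σ := σ))
  zero : F.NL (0 : F.Ξ σ) = 0
  fd : ∀ ξ : F.Ξ σ, σ.val (fderiv ℂ F.NL 0 ξ) =
    -(T.G.oR (T.χ' * T.G.ρ) * T.G.SC.LL (dot (F.D.yy (T.m0 ξ.2.2)) T.G.SC.n))
  cj : ∀ᶠ ξ in 𝓝 (0 : F.Ξ σ), F.NL (F.cj ξ) = σ.cj (F.NL ξ)

/-- the system -/
structure PhiD : Prop where
  dat : F.DatD σ
  ii : F.IID σ
  nl : F.NLD σ
  hol : HolAt (F.Φ (σ := σ))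
  zero : F.Φ (σ := σ) 0 = 0
  fd : ∀ (ξ : F.Ξ σ) y w, fderiv ℂ F.Φ 0 (ξ, y, w) =
    (ξ.1 - fderiv ℂ F.NL 0 ξ - ∑ j, (w j).1, fun k => ξ.2.1 (.inl k) - y k,
      fun q => Wi.co (fderiv ℂ F.dat 0 ξ q.1) ((q.2 : ℤ) - 1) - (w q.1).2 q.2)
  cj : ∀ᶠ ξ in 𝓝 (0 : F.Ξ σ), ∀ y w, F.Φ (ξ, y, w) = 0 → F.Φ (F.cj ξ, star y, T.cW σ w) = 0

/-- the linearised system is invertible and sees the far parameters -/
def LinD (En : (Fin T.p → ℂ) × T.BB → T.WW σ) : Prop :=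
  ∃ A : F.Ξ σ ≃L[ℂ] F.HH σ,
    (∀ ξ, A ξ = fderiv ℂ F.Φ 0 (ξ, 0, fderiv ℂ En 0 (0, fderiv ℂ F.dat 0 ξ))) ∧
    ∀ α ξ, A ξ = -fderiv ℂ F.Φ 0 (0, 0, fderiv ℂ En 0 (α, 0)) → ξ.2.1 = 0 → α = 0

variable {σ}

/-- the core solves the constrained equation and matches the ends -/
structure Mat (N : ℕ) (X : ℂ) (a : Fin T.p → ℂ) (ξ : F.Ξ σ) : Prop where
  mt : ∀ j (q : ℝ × ℝ), T.R < q.1 → q.1 < T.R + 1 / 3 →
    T.rW j (F.w ξ) q = (2 * T.vU (F.zE N X a ξ j) q) ^ (1 / 2 : ℂ)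
  eq : ∀ p : S.sl 0, (∀ j, ((p : E), (0 : ℝ)) ∉ tube T.e j (T.R + 1 / 3)) →
    F.EQ ξ p = 0 ∧ F.D.Nd (F.w ξ) (T.TT ξ.2.2) (F.c ξ) p

/-- the inner datum of the end `j` along a family -/
def bq (ξ : ℂ × (F.I → ℂ) → F.Ξ σ) (j : Fin T.p) (q : ℂ × (F.I → ℂ)) : Wi (omP 2) :=
  T.b0 j + F.dat (ξ q) j

/-- the action along a family -/
def Aq (N : ℕ) (ξ : ℂ × (F.I → ℂ) → F.Ξ σ) (q : ℂ × (F.I → ℂ)) : ℂ := F.AT N q.1 (aa q.2) (ξ q)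

/-- a glued family of size `ρ` -/
structure Gf (N : ℕ) (ξ : ℂ × (F.I → ℂ) → F.Ξ σ) (ρ r X1 θ : ℝ) : Prop where
  r_pos : 0 < r
  θ_pos : 0 < θ
  θ_le : θ ≤ 1
  X1_ge : 2 ≤ X1
  hol : DifferentiableOn ℂ ξ (Om r (KK N - 1 / 4) X1 θ)
  small : ∀ q ∈ Om r (KK N - 1 / 4) X1 θ, ‖ξ q‖ < ρ ∧ ‖F.dat (ξ q)‖ < ρ
  en : ∀ j, Gi.En T.U N (F.bq ξ j) T.R (KK N - 1 / 4) T.k.K1 (13 / 8) (7 / 4) T.k.ε T.k.ε1 T.k.C
    r X1 θ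
  sv : ∀ q ∈ Om r (KK N - 1 / 4) X1 θ, F.Sv N q.1 (yy q.2) (aa q.2) (ξ q)
  mat : ∀ q ∈ Om r (KK N - 1 / 4) X1 θ, F.Mat N q.1 (aa q.2) (ξ q)
  cj : ∀ X : ℝ, X1 < X → ∀ w ∈ DomA r (KK N - 1 / 4) X, ξ (X, star w) = F.cj (ξ (X, w))
  base : ∀ ε, 0 < ε → ∃ δ, 0 < δ ∧ ∀ X : ℝ, δ⁻¹ < X → X1 < X → ∀ w ∈ DomA r (KK N - 1 / 4) X,
    ‖yy w‖ < δ → ‖ξ (X, w)‖ < ε ∧ ‖F.dat (ξ (X, w))‖ < ε

variable (σ)

/-- for all small glued families -/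
def AllG (P : ℕ → (ℂ × (F.I → ℂ) → F.Ξ σ) → ℝ → ℝ → ℝ → Prop) : Prop :=
  ∃ ρ : ℝ, 0 < ρ ∧ ∀ N ξ r X1 θ, F.Gf N ξ ρ r X1 θ → P N ξ r X1 θ

/-- matching -/
def MatD : Prop := ∃ ρ X1 : ℝ, 0 < ρ ∧ ∀ N X y a (ξ : F.Ξ σ), X1 < X.re → ‖ξ‖ < ρ →
  ‖F.dat ξ‖ < ρ → F.Sv N X y a ξ → F.Mat N X a ξ

/-- first variation (`Gi.Pc.var`) -/
def VarD : Prop := F.AllG σ fun N ξ r X1 _ => ∃ CT : ℝ, ∀ X : ℝ, X1 < X →
  ∀ w ∈ DomA r (KK N - 1 / 4) X, ∀ (δ : ℂ) (v : F.I → ℂ), ∃ Tq : Fin T.p → ℂ,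
    (∀ j, ‖Tq j‖ ≤ CT * Real.exp (-X ^ 2 / 4) * X ^ (-(2 * (13 / 8 : ℝ))) *
      ‖fderiv ℂ (fun q => (ξ q).2.2) (X, w) (δ, v)‖) ∧
    fderiv ℂ (F.Aq N ξ) (X, w) (δ, v) =
      ∑ l, F.c (ξ (X, w)) l * fderiv ℂ (fun q => F.II (ξ q)) (X, w) (δ, v) l +
      ∑ j, (Far.farI T.R X (w (Sum.inr j)) (Gi.Jq T.U N j (F.bq ξ j) (X, w)) δ (v (Sum.inr j))
        (fderiv ℂ (Gi.Jq T.U N j (F.bq ξ j)) (X, w) (δ, v)) + Tq j)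

/-- the value of the action -/
def ActD : Prop := F.AllG σ fun N ξ r X1 θ =>
  DifferentiableOn ℂ (F.Aq N ξ) (Om r (KK N - 1 / 4) X1 θ) ∧
  (∃ C : ℝ, ∀ q ∈ Om r (KK N - 1 / 4) X1 θ, ‖F.Aq N ξ q‖ ≤ C) ∧
  (∀ X : ℝ, X1 < X → ∀ x : F.I → ℝ, ofR x ∈ DomA r (KK N - 1 / 4) X →
    (F.Aq N ξ (X, ofR x)).im = 0) ∧
  Tendsto (fun X : ℝ => F.Aq N ξ (X, 0)) atTop (𝓝 ((4 * Real.pi * S.Fs 0 0 1 : ℝ) : ℂ))

/-- the ambient constraint functions -/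
def fA (g : F.I → E → ℝ) (i : Fin (F.n + T.p)) (y : E) : ℝ :=
  4 * Real.pi * gau 0 1 y * g (finSumFinEquiv.symm i) y

/-- ambient extensions -/
structure Am (δ : ℝ) (g : F.I → E → ℝ) : Prop where
  δ_pos : 0 < δ
  sm : ∀ k, ContDiff ℝ ∞ (g k)
  lin : ∀ k (p : S.sl 0) (s : ℝ), |s| ≤ δ * (1 + ‖(p : E)‖) →
    g k ((p : E) + s • T.Zv p) = s * (F.φ k).1 p
  supp : ∀ k, ∀ y ∈ tsupport (g k), ‖y‖ < T.R - 1 / 2 ∧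
    ∀ j, xi T.e j y < T.R - 7 / 4 ∨ 6 < r2 T.e j y
  cons : Cons S (F.fA g)

/-- the real points -/
def RealD (g : F.I → E → ℝ) : Prop := F.AllG σ fun N ξ _ _ _ =>
  RealM S (F.fA g) finSumFinEquiv.symm (Gi.FFo N (F.Aq N ξ)) (fun q => F.II (ξ q))
    fun q => F.c (ξ q)

end Fa

/-! ### the leaves -/

/-- settings exist (75) -/
def ExL : Prop := ∀ (S : Mv) (Λ : ℝ), S.IsShr → S.AR Λ → ∀ (e : Ends S) (P : St S → Prop),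
  Ev e P → ∃ T, T.e = e ∧ P T

/-- the ends are good (84) -/
def GoodL : Prop := ∀ (S : Mv) (e : Ends S), Ev e St.Good

/-- the end maps (4) -/
def EndL : Prop := ∀ (S : Mv) (T : St S), T.Good → Sg fun σ => ∃ En rb C0, T.EnD σ En rb C0

/-- Jacobi fields (29) -/
def JacL : Prop := ∀ (S : Mv) (T : St S), T.Good →
  Sg fun σ => ∀ En rb C0, T.EnD σ En rb C0 → T.JacD σ En

/-- one fast growing Jacobi field on every end (29) -/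
def JaL : Prop := ∀ (S : Mv) (Λ : ℝ), S.IsShr → S.AR Λ → ∀ (e : Ends S) (j : Fin e.p),
  ∃ R1 d, e.R < R1 ∧ Lg.Jac (fun q => ((e.r j q : ℝ) : ℂ) ^ 2 / 2) R1 d ∧ Lg.Unb d

/-- boundary data (40) -/
def DatL : Prop := ∀ (S : Mv) (T : St S) (F : Fa T), Sg F.DatD

/-- pairings (82, 13, 37) -/
def IIL : Prop := ∀ (S : Mv) (T : St S) (F : Fa T), Sg F.IID

/-- nonlinearity (76, 71) -/
def NLL : Prop := ∀ (S : Mv) (T : St S) (F : Fa T), Sg F.NLD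

/-- the system (76) -/
def PhiL : Prop := ∀ (S : Mv) (T : St S) (F : Fa T), Sg F.PhiD

/-- the linearised system (28, 73) -/
def LinL : Prop := ∀ (S : Mv) (e : Ends S), Ev e fun T => ∃ F : Fa T,
  Sg fun σ => F.PhiD σ → ∀ En, T.JacD σ En → F.LinD σ En

/-- matching (66) -/
def MatL : Prop := ∀ (S : Mv) (e : Ends S), Ev e fun T => T.Good → ∀ F : Fa T,
  Sg fun σ => F.PhiD σ → F.MatD σ

/-- first variation (97, 48, 81, 82) -/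
def VarL : Prop := ∀ (S : Mv) (T : St S), T.Good → ∀ F : Fa T, Sg fun σ => F.PhiD σ → F.VarD σ

/-- value of the action (26, 82) -/
def ActL : Prop := ∀ (S : Mv) (T : St S), T.Good → ∀ F : Fa T, Sg fun σ => F.PhiD σ → F.ActD σ

/-- constraint functions (52, 13) -/
def AmL : Prop := ∀ (S : Mv) (T : St S) (F : Fa T), ∃ δ g, F.Am δ g

/-- real points (55, 50) -/
def RealL : Prop := ∀ (S : Mv) (T : St S), T.Good → ∀ (F : Fa T) δ g, F.Am δ g →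
  Sg fun σ => F.PhiD σ → F.RealD σ g

end Crest.Agent.N250.R0

end
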