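import Crest.Agent.N250.R0.Core
import Crest.Agent.N250.Gi.Cj

/-!
# Row 250 (helper3): conjugation symmetry of the end side of the glued system
-/

set_option autoImplicit false
open Set Complex
open scoped ComplexConjugate
open Crest.GeometryTopology.MCF

noncomputable section

namespace Crest.Agent.N250.R0.CjE

open WS Wr B1 B1.Cj

/-! ### total definitions commute with conjugation -/

theorem four_cj (k : ℕ) (g : ℝ → ℂ) : Ec.four k (fun θ => conj (g θ)) = Wi.cj (Ec.four k g) := by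
  have e : ∀ m, ‖(omP k).w m * Ra.fc (fun θ => conj (g θ)) m‖ = ‖(omP k).w (-m) * Ra.fc g (-m)‖ :=
    fun m => by simp only [Ec.norm_omP_mul, Ec.fc_conj, norm_conj, Int.cast_neg, abs_neg]
  have i : (Summable fun m => ‖(omP k).w m * Ra.fc (fun θ => conj (g θ)) m‖) ↔
      Summable fun m => ‖(omP k).w m * Ra.fc g m‖ := by
    simp only [e]
    exact (Equiv.neg ℤ).summable_iff (f := fun m => ‖(omP k).w m * Ra.fc g m‖)
  by_cases h : Summable fun m => ‖(omP k).w m * Ra.fc g m‖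
  · refine Wi.ext fun m => ?_
    rw [Ec.co_four' (i.2 h), co_cj (ev_omP k), Ec.co_four' h, Ec.fc_conj]; rfl
  · rw [Ec.four, Ec.four, dif_neg h, dif_neg (mt i.1 h)]
    exact Wi.ext fun m => by simp [co_cj (ev_omP k)]

section geo

variable {X : Type} [TopologicalSpace X] [MeasurableSpace X]

theorem sm_cj_iff (G : Geo X) (f : X → ℂ) : G.M.Sm (fun p => conj (f p)) ↔ G.M.Sm f :=
  ⟨fun h => (show (fun p => conj (conj (f p))) = f from funext fun _ => conj_conj _) ▸ (G.cj ⟨_, h⟩).2,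
    fun h => (G.cj ⟨_, h⟩).2⟩

theorem lift_cj (G : Geo X) (Q : E ≃ₗᵢ[ℝ] E) (c : G.R) (g : ℝ × ℝ → ℂ) :
    EC.lift G Q (G.oR c) (fun q => conj (g q)) = G.cj (EC.lift G Q (G.oR c) g) := by
  have e : (fun p => (G.oR c).1 p * conj (g (EC.cr G Q p))) =
      fun p => conj ((G.oR c).1 p * g (EC.cr G Q p)) := funext fun p => by
    rw [map_mul, ← G.cj_apply, G.cj_oR]
  by_cases h : G.M.Sm fun p => (G.oR c).1 p * g (EC.cr G Q p)
  · rw [EC.lift, EC.lift, dif_pos h, dif_pos (e ▸ (sm_cj_iff G _).2 h)]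
    exact Subtype.ext e
  · rw [EC.lift, EC.lift, dif_neg h, dif_neg (e ▸ mt (sm_cj_iff G _).1 h), map_zero]

theorem toA_cj [BorelSpace X] {G : Geo X} (σ : Scale G) (f : G.SmC) :
    EC.toA σ (G.cj f) = σ.cj (EC.toA σ f) := by
  by_cases h : G.NN σ.ε f ≠ ⊤
  · refine Scale.AA_ext ?_
    rw [σ.val_cj, EC.val_toA h, EC.val_toA (by rwa [(G.lv_NN σ.ε).cj])]
  · rw [EC.toA, EC.toA, dif_neg h, dif_neg (by rwa [(G.lv_NN σ.ε).cj]), map_zero]

end geo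

variable {S : Mv} (T : St S)

theorem sm_cj (f : S.sl 0 → ℂ) : T.sm (fun p => conj (f p)) = T.G.cj (T.sm f) := by
  by_cases h : T.G.M.Sm f
  · exact Subtype.ext (by
      rw [T.sm_val ((sm_cj_iff _ f).2 h)]; funext p; rw [Geo.cj_apply, T.sm_val h])
  · rw [St.sm, St.sm, dif_neg h, dif_neg (mt (sm_cj_iff _ f).1 h), map_zero]

/-- conjugation of boundary data -/
def cB (b : T.BB) : T.BB := fun j => Wi.cj (b j)

/-- conjugation of the values of one end map -/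
def cW1 (σ : Scale T.G) (w : T.W1 σ) : T.W1 σ := (σ.cj w.1, fun i => conj (w.2 (Fin.rev i)))

/-- conjugation of the values of the end map -/
def cW (σ : Scale T.G) (w : T.WW σ) : T.WW σ := fun j => cW1 T σ (w j)

@[simp] theorem norm_cB (b : T.BB) : ‖cB T b‖ = ‖b‖ := by
  simp only [Pi.norm_def, cB, ← norm_toNNReal, norm_cj]

@[simp] theorem cB_cB (b : T.BB) : cB T (cB T b) = b := funext fun _ => cj_cj _

variable (j : Fin T.p)

theorem rS_cj (q : ℝ × ℝ) : conj (T.rS j q) = T.rS j q := conj_ofReal _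

theorem vS_cj (q : ℝ × ℝ) : conj (T.vS j q) = T.vS j q := by
  rw [St.vS, map_div₀, map_pow, rS_cj, map_ofNat]

theorem nu_cj (q : ℝ × ℝ) : conj (T.nu j q) = T.nu j q := conj_ofReal _

theorem rW_cj (w : T.G.SmC) (q : ℝ × ℝ) : T.rW j (T.G.cj w) q = conj (T.rW j w q) := by
  rw [St.rW, St.rW, map_add, map_div₀, rS_cj, nu_cj, Geo.cj_apply]

theorem vW_cj (w : T.G.SmC) (q : ℝ × ℝ) : T.vW j (T.G.cj w) q = conj (T.vW j w q) := by
  rw [St.vW, St.vW, rW_cj, map_div₀, map_pow, map_ofNat]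

theorem b0_cj : Wi.cj (T.b0 j) = T.b0 j := by
  rw [St.b0, ← four_cj]; simp only [map_sub, vS_cj, map_one]

theorem zz_cj (X a h : ℂ) (b : Wi (omP 2)) :
    T.zz j (conj X) (conj a) (conj h) (Wi.cj b) = cz (T.zz j X a h b) := by
  rw [St.zz, St.zz, Gi.Cj.cz_wd, cj_add, b0_cj]

theorem gE_cj {v : ℝ × ℝ → ℂ} (hv : ∀ q, 0 < (v q).re) :
    T.gE j (fun q => conj (v q)) = fun q => conj (T.gE j v q) := funext fun q => by
  rw [St.gE, St.gE, map_mul, map_sub, rS_cj, nu_cj, ← Gi.Cj.half_cj (by simpa using hv q), map_mul,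
    map_ofNat]

theorem uE_cj {v : ℝ × ℝ → ℂ} (hv : ∀ q, 0 < (v q).re) :
    T.uE j (fun q => conj (v q)) = T.G.cj (T.uE j v) := by
  rw [St.uE, St.uE, gE_cj T j hv, lift_cj]

theorem sE_cj {v : ℝ × ℝ → ℂ} (hv : ∀ q, 0 < (v q).re) :
    T.sE j (fun q => conj (v q)) = T.G.cj (T.sE j v) := by
  simp only [St.sE, uE_cj T j hv, map_mul, map_sub, Geo.cj_oR, Geo.cj_LL]

theorem rev_sub (i : Fin 3) : ((Fin.rev i : Fin 3) : ℤ) - 1 = -((i : ℤ) - 1) := by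
  fin_cases i <;> rfl

theorem mE_cj (v : ℝ × ℝ → ℂ) (i : Fin 3) :
    T.mE j (fun q => conj (v q)) i = conj (T.mE j v (Fin.rev i)) := by
  rw [St.mE, St.mE, rev_sub, ← Ec.fc_conj]; simp only [map_sub, vS_cj]

theorem eV_cj (σ : Scale T.G) {v : ℝ × ℝ → ℂ} (hv : ∀ q, 0 < (v q).re) :
    T.eV σ j (fun q => conj (v q)) = cW1 T σ (T.eV σ j v) :=
  Prod.ext (by rw [St.eV, sE_cj T j hv, toA_cj]; rfl) (funext fun i => mE_cj T j v i)

omit j

/-- the domain of the end solver -/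
abbrev Dm : Set (Par T.ℓ) := Dom T.R T.k.K1 (13 / 8) (7 / 4) T.k.ε

/-- the standing smallness assumptions -/
abbrev Sz' : Prop := Sz T.R T.k.K1 (13 / 8) (7 / 4) T.k.ε1

theorem K1_pos : 0 < T.k.K1 := one_pos.trans_le T.k.K1_ge

theorem small : T.k.C * (3 / T.k.K1 + T.k.ε) ≤ T.k.ε1 := by
  have := mul_pos T.k.C_pos (add_pos (div_pos three_pos (K1_pos T)) T.k.ε_pos)
  linarith [T.k.small]

variable {T} {z : Par T.ℓ}

theorem sl (hz : z ∈ Dm T) : Sl T.R T.k.K1 (13 / 8) (7 / 4) T.k.ε T.k.ε1 z (T.U z) :=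
  T.hU.sl (K1_pos T) T.k.C_pos.le (small T) hz

theorem U_cj (hz : z ∈ Dm T) : T.U (cz z) = cJ (T.U z) :=
  T.hU.conj (K1_pos T) T.k.C_pos.le (small T) hz

theorem vU_cj (hz : z ∈ Dm T) : T.vU (cz z) = fun q => conj (T.vU z q) := funext fun q => by
  rw [St.vU, St.vU, U_cj hz, Gi.Cj.vS_cj]

theorem vj_re_pos (c : Sz' T) (hz : z ∈ Dm T) (s : II) (θ : ℝ) :
    0 < (vj T.R z.1 z.2.1 (T.U z) s θ 0).re :=
  lt_of_lt_of_le (by linarith [((sl hz).pt c s).re_pos])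
    (Rg.reg_q c.ex c.hR c.hK c.he hz (Rg.IsJet.co3 (sl hz).sol.jet) (sl hz).inb s θ).1

theorem vU_re_pos (c : Sz' T) (hz : z ∈ Dm T) (q : ℝ × ℝ) : 0 < (T.vU z q).re := vj_re_pos c hz _ _

theorem eV_vU_cj (c : Sz' T) (σ : Scale T.G) (j : Fin T.p) (hz : z ∈ Dm T) :
    T.eV σ j (T.vU (cz z)) = cW1 T σ (T.eV σ j (T.vU z)) := by
  rw [vU_cj hz, eV_cj T j σ (vU_re_pos c hz)]

theorem AE_cj (c : Sz' T) (hz : z ∈ Dm T) : T.AE (cz z) = conj (T.AE z) := by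
  rw [St.AE, St.AE, U_cj hz]
  exact Gi.Cj.actC_cj (fun s => conj_ofReal _) ((sl hz).regJ c)

theorem e1_cj (c : Sz' T) (σ : Scale T.G) {j : Fin T.p} {X a h : ℂ} {b : Wi (omP 2)}
    (hz : T.zz j X a h b ∈ Dm T) :
    T.e1 σ j (conj X) (conj a) (conj h) (Wi.cj b) = cW1 T σ (T.e1 σ j X a h b) := by
  rw [St.e1, St.e1, zz_cj, eV_vU_cj c σ j hz]

variable {N : ℕ} {X : ℂ} {a : Fin T.p → ℂ}

/-- **the end map** -/
theorem eM_cj (c : Sz' T) (σ : Scale T.G) (h0 : HJ.N0 ≤ N) (hj : ∀ j, HJ.Adm N X (et (a j) X))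
    {b : T.BB} (hz : ∀ j, T.zz j X (a j) (Gi.hN N X (a j)) (b j) ∈ Dm T) :
    T.eM σ N (conj X) (star a) (cB T b) = cW T σ (T.eM σ N X a b) := funext fun j => by
  have := e1_cj c σ (hz j)
  rwa [← Gi.Cj.hN_cj h0 (hj j)] at this

theorem eM_cj_real (c : Sz' T) (σ : Scale T.G) (h0 : HJ.N0 ≤ N) {X : ℝ}
    (hj : ∀ j, HJ.Adm N X (et (a j) X)) {b : T.BB}
    (hz : ∀ j, T.zz j X (a j) (Gi.hN N X (a j)) (b j) ∈ Dm T) :
    T.eM σ N X (star a) (cB T b) = cW T σ (T.eM σ N X a b) := by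
  rw [← eM_cj c σ h0 hj hz, conj_ofReal]

variable (F : Fa T) {σ : Scale T.G}

theorem w_cj (ξ : F.Ξ σ) : F.w (F.cj ξ) = T.G.cj (F.w ξ) := σ.wG_cj F.grn (ξ.1, ξ.2.1)

theorem c_cj (ξ : F.Ξ σ) : F.c (F.cj ξ) = star (F.c ξ) := by
  rw [Fa.c, Fa.c, star_neg]; exact congrArg _ (σ.cG_cj F.grn (ξ.1, ξ.2.1))

theorem norm_cj' (ξ : F.Ξ σ) : ‖F.cj ξ‖ = ‖ξ‖ := by simp [Fa.cj, Prod.norm_def]

theorem cj_cj' (ξ : F.Ξ σ) : F.cj (F.cj ξ) = ξ := by simp [Fa.cj]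

/-- **the boundary data** -/
theorem dat_cj (ξ : F.Ξ σ) : F.dat (F.cj ξ) = cB T (F.dat ξ) := funext fun j => by
  rw [cB, Fa.dat, Fa.dat, ← four_cj]; simp only [w_cj, vW_cj, map_sub, vS_cj]

theorem zE_cj (h0 : HJ.N0 ≤ N) (ξ : F.Ξ σ) {j : Fin T.p} (hj : HJ.Adm N X (et (a j) X)) :
    F.zE N (conj X) (star a) (F.cj ξ) j = cz (F.zE N X a ξ j) := by
  rw [Fa.zE, Fa.zE, dat_cj, ← zz_cj, ← Gi.Cj.hN_cj h0 hj]; rfl

/-- the third component of the system -/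
theorem co_dat_cj (ξ : F.Ξ σ) (j : Fin T.p) (i : Fin 3) :
    Wi.co (F.dat (F.cj ξ) j) ((i : ℤ) - 1) =
      conj (Wi.co (F.dat ξ j) (((Fin.rev i : Fin 3) : ℤ) - 1)) := by
  rw [dat_cj, cB, co_cj (ev_omP 2), rev_sub]; rfl

/-- **the action**, given the symmetry of the core part -/
theorem AT_cj (c : Sz' T) (h0 : HJ.N0 ≤ N) (hj : ∀ j, HJ.Adm N X (et (a j) X)) {ξ : F.Ξ σ}
    (hz : ∀ j, F.zE N X a ξ j ∈ Dm T) (hA : T.AC (F.Y (F.cj ξ)) = conj (T.AC (F.Y ξ))) :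
    F.AT N (conj X) (star a) (F.cj ξ) = conj (F.AT N X a ξ) := by
  rw [Fa.AT, Fa.AT, hA, map_add, map_sum]
  exact congrArg _ (Finset.sum_congr rfl fun j _ => by rw [zE_cj F h0 ξ (hj j), AE_cj c (hz j)])

/-- the system, given the symmetry of the nonlinearity and of the pairings -/
theorem Φ_cj {ξ : F.Ξ σ} {y : Fin F.n → ℂ} {w : T.WW σ} (hN : F.NL (F.cj ξ) = σ.cj (F.NL ξ))
    (hI : ∀ k, F.II (F.cj ξ) k = conj (F.II ξ k)) (h : F.Φ (ξ, y, w) = 0) :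
    F.Φ (F.cj ξ, star y, cW T σ w) = 0 := by
  have h1 := congrArg (fun u => σ.cj u.1) h
  have h2 := fun k => congrArg (fun u => conj (u.2.1 k)) h
  have h3 := fun (q : Fin T.p × Fin 3) => congrArg (fun u => conj (u.2.2 (q.1, Fin.rev q.2))) h
  simp only [Fa.Φ, map_sub, map_sum, Prod.fst_zero, Prod.snd_zero, Pi.zero_apply, map_zero] at h1 h2 h3
  refine Prod.ext ?_ (Prod.ext (funext fun k => ?_) (funext fun q => ?_))
  · simp only [Fa.Φ, hN]; exact h1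
  · simp only [Fa.Φ, hI]; exact h2 k
  · simp only [Fa.Φ, co_dat_cj]; exact h3 q

end Crest.Agent.N250.R0.CjE

end
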