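import Crest.Agent.N250.R0.Stm

/-!
# Row 250 (helper55): `ChainS`, the choice of the cut
-/

set_option autoImplicit false
open MeasureTheory Set Filter Topology
open Crest.GeometryTopology.MCF

noncomputable section

namespace Crest.Agent.N250.R0

open Crest.Agent.N250.B2 (aa ofR)
open Crest.Agent.N250.Gi (KK hat TL DX Fx ConclX c0)

namespace Ch

theorem sq_top : Tendsto (fun X : ℝ => X ^ 2) atTop atTop := tendsto_pow_atTop two_ne_zero

theorem ev_TL (N : ℕ) : ∀ᶠ X : ℝ in atTop, X ^ 2 ≤ TL N X ∧ TL N X ≤ 2 * X ^ 2 := by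
  have h1 : ∀ᶠ y : ℝ in atTop, -c0 N / 4 ≤ Real.log y :=
    Real.tendsto_log_atTop.eventually (eventually_ge_atTop _)
  have h2 : ∀ᶠ y : ℝ in atTop, ‖Real.log y‖ ≤ 1 / 8 * ‖y‖ :=
    Real.isLittleO_log_id_atTop.def (by norm_num)
  filter_upwards [sq_top.eventually h1, sq_top.eventually h2,
    sq_top.eventually (eventually_ge_atTop (2 * c0 N))] with X a b c
  rw [Real.norm_eq_abs, Real.norm_of_nonneg (sq_nonneg X)] at b
  have := le_abs_self (Real.log (X ^ 2))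
  unfold TL
  constructor <;> linarith

theorem ev_poly (A c : ℝ) (hc : 0 < c) (n : ℕ) :
    ∀ᶠ X : ℝ in atTop, A * (2 * X ^ 2) ^ n * Real.exp (-c * X ^ 2) ≤ 1 := by
  have h := ((Real.tendsto_pow_mul_exp_neg_atTop_nhds_zero n).comp
    (sq_top.const_mul_atTop hc)).const_mul (A * (2 / c) ^ n)
  rw [mul_zero] at h
  filter_upwards [h.eventually (gt_mem_nhds one_pos)] with X hX
  refine le_of_eq_of_le ?_ hX.le
  simp only [Function.comp]
  rw [neg_mul, show 2 * X ^ 2 = 2 / c * (c * X ^ 2) by field_simp, mul_pow]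
  ring

theorem add_rpow_le {a b μ : ℝ} (ha : 0 ≤ a) (hb : 0 ≤ b) (hb1 : b ≤ 1) (h1 : 1 ≤ μ) (h2 : μ ≤ 2) :
    (a + b) ^ μ ≤ 4 * (a ^ μ + b) := by
  have h4 : (2 : ℝ) ^ μ ≤ 4 := by
    have := Real.rpow_le_rpow_of_exponent_le (one_le_two (α := ℝ)) h2
    rw [Real.rpow_two] at this; linarith
  have a0 := Real.rpow_nonneg ha μ
  have hbμ : b ^ μ ≤ b := by
    have := Real.rpow_le_rpow_of_exponent_ge' hb hb1 zero_le_one h1
    rwa [Real.rpow_one] at this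
  rcases le_total a b with h | h
  · calc (a + b) ^ μ ≤ (2 * b) ^ μ := Real.rpow_le_rpow (by linarith) (by linarith) (by linarith)
      _ = 2 ^ μ * b ^ μ := Real.mul_rpow (by norm_num) hb
      _ ≤ 4 * b := mul_le_mul h4 hbμ (Real.rpow_nonneg hb μ) (by norm_num)
      _ ≤ _ := by linarith
  · calc (a + b) ^ μ ≤ (2 * a) ^ μ := Real.rpow_le_rpow (by linarith) (by linarith) (by linarith)
      _ = 2 ^ μ * a ^ μ := Real.mul_rpow (by norm_num) ha
      _ ≤ 4 * a ^ μ := mul_le_mul_of_nonneg_right h4 a0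
      _ ≤ _ := by linarith

variable {ι κ : Type} [Fintype ι] [Fintype κ]

theorem norm_aa_le (x : ι ⊕ κ → ℝ) : ‖aa x‖ ≤ ‖x‖ :=
  (pi_norm_le_iff_of_nonneg (norm_nonneg _)).2 fun j => norm_le_pi_norm x (Sum.inr j)

omit [Fintype ι] in
theorem norm_aa_ofR (x : ι ⊕ κ → ℝ) : ‖aa (ofR x)‖ ≤ ‖aa x‖ :=
  (pi_norm_le_iff_of_nonneg (norm_nonneg _)).2 fun j => by
    have := norm_le_pi_norm (aa x) j
    simpa [aa, ofR] using this

/-- the choice of the cut -/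
theorem exists_cut {α L T : ℝ} (hα : 0 ≤ α) (_hT : 0 < T) (h1 : T ≤ L) (h2 : α * T ^ 2 ≤ 1 / 2) :
    ∃ X, T ≤ X ∧ α * X ^ 2 ≤ 1 / 2 ∧ (X = L ∨ α * X ^ 2 = 1 / 2) := by
  by_cases h : α * L ^ 2 ≤ 1 / 2
  · exact ⟨L, h1, h, Or.inl rfl⟩
  · have a0 : 0 < α := by
      rcases hα.eq_or_lt with h0 | h0
      · exact absurd (by rw [← h0]; norm_num) h
      · exact h0
    have e : α * √(1 / (2 * α)) ^ 2 = 1 / 2 := by
      rw [Real.sq_sqrt (by positivity)]; field_simp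
    refine ⟨√(1 / (2 * α)), Real.le_sqrt_of_sq_le ?_, e.le, Or.inr e⟩
    rw [le_div_iff₀ (by positivity)]; linarith

end Ch

open Ch

set_option maxHeartbeats 800000 in
theorem chainS_holds : ChainS := by
  intro S n g ι κ _ _ σ N FF Z cc f al Θ r δ X0 C hg hR hX hc
  obtain ⟨θ, ρ₀, CR, c₀, hθ, hρ₀, hCR, hc₀, hR⟩ := hR
  obtain ⟨m, μ, Cc, r', X1, f0, hμ1, hμ2, hCc, hr', hc⟩ := hc
  have hp := Real.pi_gt_three
  -- `f0` is the action of `S`
  have hf0 : f0 = ((4 * Real.pi * S.Fs 0 0 1 : ℝ) : ℂ) := by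
    refine tendsto_nhds_unique ?_ hX.base
    rw [tendsto_iff_norm_sub_tendsto_zero]
    have h0 : Tendsto (fun X : ℝ => Cc * Real.exp (-(1 / 4 * X ^ 2))) atTop (𝓝 0) := by
      simpa using (Real.tendsto_exp_neg_atTop_nhds_zero.comp
        (sq_top.const_mul_atTop (by norm_num : (0 : ℝ) < 1 / 4))).const_mul Cc
    refine squeeze_zero' (Eventually.of_forall fun _ => norm_nonneg _) ?_ h0
    filter_upwards [ev_TL N, eventually_gt_atTop X1] with X a b
    exact (hc X b).1.trans (mul_le_mul_of_nonneg_left (Real.exp_le_exp.2 (by linarith [a.1])) hCc.le)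
  obtain ⟨C3, h3, h3'⟩ : ∃ C3 : ℝ, 1 ≤ C3 ∧ ∀ a b d e e' e'' : ℝ, 0 ≤ d → 0 ≤ b → 0 ≤ e' → e' ≤ e →
      e'' ≤ e → a ≤ C * (b + e') → b ≤ CR * d → a + e'' ≤ C3 * (d + e) := by
    refine ⟨|C| * (CR + 1) + 1, le_add_of_nonneg_left (by positivity),
      fun a b d e e' e'' hd hb he' h1 h2 h3 h4 => ?_⟩
    have k1 : C * (b + e') ≤ |C| * (CR * d + e) :=
      (mul_le_mul_of_nonneg_right (le_abs_self C) (by positivity)).trans
        (mul_le_mul_of_nonneg_left (by linarith) (abs_nonneg C))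
    have e0 : 0 ≤ e := he'.trans h1
    nlinarith [mul_nonneg (abs_nonneg C) hd, mul_nonneg (mul_nonneg (abs_nonneg C) hCR.le) e0]
  obtain ⟨C4, h4, h4'⟩ : ∃ C4 : ℝ, 1 ≤ C4 ∧ Cc * C3 ≤ C4 := ⟨max 1 (Cc * C3), le_max_left _ _,
    le_max_right _ _⟩
  obtain ⟨c₁, hc₁, c1a, c1b⟩ : ∃ c₁ : ℝ, 0 < c₁ ∧ c₁ ≤ c₀ ∧ c₁ ≤ 1 / 8 :=
    ⟨min c₀ (1 / 8), by positivity, min_le_left _ _, min_le_right _ _⟩
  obtain ⟨Λ, hΛ, hΛ', hΛθ⟩ : ∃ Λ : ℝ, 4 ≤ Λ ∧ 1 ≤ c₁ * Λ ^ 2 ∧ 2 ≤ θ * Λ := by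
    have h : 0 < c₁⁻¹ := by positivity
    have h' : 0 < 2 / θ := by positivity
    have e1 : c₁ * c₁⁻¹ = 1 := by field_simp
    have e2 : θ * (2 / θ) = 2 := by field_simp
    refine ⟨4 + c₁⁻¹ + 2 / θ, by linarith, ?_, by nlinarith [mul_pos hθ h]⟩
    have : 1 ≤ c₁ * (4 + c₁⁻¹ + 2 / θ) := by nlinarith [mul_pos hc₁ h']
    nlinarith
  obtain ⟨T0, hT0⟩ := eventually_atTop.1 ((ev_TL N).and ((ev_poly (2 * C4) (1 / 8) (by norm_num) m).and
    ((ev_poly (4 * C4 ^ 2) c₁ hc₁ (2 * m)).and ((eventually_gt_atTop X0).and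
      ((eventually_gt_atTop X1).and ((eventually_ge_atTop 12).and (eventually_ge_atTop (6 / θ))))))))
  set C5 := 2 * (Cc * C3 ^ μ) + CR + 2 * C4 * (8 / θ ^ 2) ^ m
  have c5a : 0 < Cc * C3 ^ μ := by positivity
  have c5b : 0 < 2 * C4 * (8 / θ ^ 2) ^ m := by positivity
  refine ⟨n, g, ρ₀, C5, μ, 2 * m, hg, hρ₀, by positivity, hμ1, fun ε hε => ?_⟩
  obtain ⟨δR, hδR, hR⟩ := hR ε hε
  obtain ⟨T, t0, t1, t2, t3⟩ : ∃ T : ℝ, T0 ≤ T ∧ δR⁻¹ < T ∧ max ε⁻¹ ((ε⁻¹ + 3) / θ) ≤ T ∧ 12 ≤ T :=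
    ⟨max (max T0 (δR⁻¹ + 1)) (max (max ε⁻¹ ((ε⁻¹ + 3) / θ)) 12), (le_max_left _ _).trans (le_max_left _ _),
      (lt_add_one _).trans_le ((le_max_right _ _).trans (le_max_left _ _)),
      (le_max_left _ _).trans (le_max_right _ _), (le_max_right _ _).trans (le_max_right _ _)⟩
  have Tp : 0 < T := by linarith
  obtain ⟨ε1, e0, e1, e2, e3, e4⟩ : ∃ ε1 : ℝ, 0 < ε1 ∧ ε1 ≤ r ∧ ε1 ≤ r' ∧ ε1 ≤ δR ∧
      ε1 * T ^ 2 ≤ 1 / 2 := by
    have := hX.r_pos
    refine ⟨min (min r r') (min δR (1 / (2 * T ^ 2))), by positivity,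
      (min_le_left _ _).trans (min_le_left _ _), (min_le_left _ _).trans (min_le_right _ _),
      (min_le_right _ _).trans (min_le_left _ _), ?_⟩
    refine (mul_le_mul_of_nonneg_right ((min_le_right _ _).trans (min_le_right _ _))
      (sq_nonneg T)).trans (le_of_eq (by field_simp))
  obtain ⟨η, hη, hon⟩ := hX.onto ε1 e0
  refine ⟨min η T⁻¹, by positivity, fun ζ r₁ τ hζ hr₁ hτ => ?_⟩
  have rT : T < r₁ := by
    refine lt_of_le_of_lt ?_ hr₁
    rw [le_inv_comm₀ Tp (by positivity)]; exact min_le_right _ _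
  obtain ⟨x, hx, hΘ⟩ := hon (fun l => ζ (σ.symm l)) (lt_of_le_of_lt
    ((pi_norm_le_iff_of_nonneg (norm_nonneg _)).2 fun l => norm_le_pi_norm ζ _)
    (hζ.trans_le (min_le_left _ _)))
  obtain ⟨X, hTX, hαX, hcase⟩ := exists_cut (α := ‖aa x‖) (L := Λ * r₁) (norm_nonneg _) Tp
    (by nlinarith only [hΛ, rT, Tp]) (le_trans (mul_le_mul_of_nonneg_right ((norm_aa_le x).trans hx.le)
      (sq_nonneg T)) e4)
  obtain ⟨⟨l1, l2⟩, p1, p2, x0, x1, x12, x6⟩ := hT0 X (t0.trans hTX)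
  have Xp : 0 < X := by linarith
  obtain ⟨hD, hal⟩ := hX.mem X x0 (ofR x) (fun i => by
    have := norm_le_pi_norm x (Sum.inl i)
    simp only [ofR, Complex.norm_real]; linarith)
    (le_trans (mul_le_mul_of_nonneg_right (norm_aa_ofR x) (sq_nonneg X)) hαX)
  set x' : ι ⊕ κ → ℝ := Sum.elim (fun i => x (Sum.inl i)) fun j => (al X (ofR x) j).re
  have hx' : ofR x' = mk (ofR x) (al X (ofR x)) := by
    funext l
    rcases l with i | j
    · rfl
    · exact Complex.ext (by simp [ofR, mk, x']) (by simp [ofR, mk, x', hX.alR X x0 x hD j])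
  have hax : ‖aa x'‖ ≤ ‖al X (ofR x)‖ := (pi_norm_le_iff_of_nonneg (norm_nonneg _)).2 fun j =>
    (Complex.abs_re_le_norm _).trans (norm_le_pi_norm (al X (ofR x)) j)
  have hax' : ‖aa x'‖ * X ^ 2 ≤ 1 := (mul_le_mul_of_nonneg_right hax (sq_nonneg X)).trans hal
  have hxδ : ‖x'‖ < δR := by
    rw [pi_norm_lt_iff hδR]
    rintro (i | j)
    · exact (norm_le_pi_norm x (Sum.inl i)).trans_lt (hx.trans_le e3)
    · have k : 1 < δR * X := by
        have := mul_lt_mul_of_pos_left (t1.trans_le hTX) hδR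
        rwa [mul_inv_cancel₀ hδR.ne'] at this
      by_contra hn
      have := mul_le_mul_of_nonneg_right ((not_lt.1 hn).trans (norm_le_pi_norm (aa x') j))
        (sq_nonneg X)
      nlinarith only [this, k, hax', x12]
  obtain ⟨G, c, hP, hN, hcc, hen⟩ := hR X (t1.trans_le hTX) x' hxδ hax' τ hτ
  rw [hx'] at hP hcc hen
  rw [hX.Z_eq X x0 _ hD, hΘ] at hP
  rw [← hX.f_eq X x0 _ hD] at hen
  have TLp : 0 < TL N X := lt_of_lt_of_le (by positivity) l1
  obtain ⟨k1, k2⟩ := (hc X x1).2 x (hx.trans_le e2) (by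
    rw [le_div_iff₀ TLp]
    linarith only [mul_le_mul_of_nonneg_left l2 (norm_nonneg (aa x)), hαX])
  set E8 := Real.exp (-(1 / 8) * X ^ 2)
  have E0 : 0 < E8 := Real.exp_pos _
  have E1 : E8 ≤ 1 := Real.exp_le_one_iff.2 (by linarith only [sq_nonneg X])
  have kD := h3' _ _ _ E8 _ (Real.exp (-TL N X / 8)) (norm_nonneg c) (norm_nonneg _)
    (Real.exp_pos _).le (Real.exp_le_exp.2 (by linarith only [sq_nonneg X]))
    (Real.exp_le_exp.2 (by linarith)) (hX.grad X x0 _ hD) hcc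
  set ρ := min r₁ (θ * X - 3)
  have ρX : ρ + 3 ≤ θ * X := by linarith [min_le_right r₁ (θ * X - 3)]
  rw [div_le_iff₀ hθ] at x6
  have ρr : ρ ≤ r₁ := min_le_left _ _
  have ρε : ε⁻¹ ≤ ρ := le_min (((le_max_left _ _).trans t2).trans rT.le) (by
    have := (div_le_iff₀ hθ).1 (((le_max_right _ _).trans t2).trans hTX)
    linarith only [this])
  have ρ0 : 0 ≤ ρ := (inv_pos.2 hε).le.trans ρε
  have cμ : 0 ≤ ‖c‖ ^ μ := Real.rpow_nonneg (norm_nonneg _) _
  have Eρ : 0 < Real.exp (-ρ ^ 2 / 6) := Real.exp_pos _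
  -- the second alternative: the multipliers are only polynomially small
  have low : ‖aa x‖ * X ^ 2 = 1 / 2 → 1 ≤ 2 * C4 * (2 * X ^ 2) ^ m * ‖c‖ := by
    intro h
    have P0 : 0 < (2 * X ^ 2) ^ m := by positivity
    have a1 : ‖aa x‖ ^ m * (2 * X ^ 2) ^ m = 1 := by
      rw [← mul_pow, show ‖aa x‖ * (2 * X ^ 2) = 1 by linarith, one_pow]
    have a2 : ‖aa x‖ ^ m ≤ C4 * (‖c‖ + E8) :=
      k1.trans ((mul_le_mul_of_nonneg_left kD hCc.le).trans (by
        rw [← mul_assoc]; exact mul_le_mul_of_nonneg_right h4' (by positivity)))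
    linarith only [mul_le_mul_of_nonneg_right a2 P0.le, a1, p1]
  have tail : Real.exp (-c₁ * X ^ 2) ≤ ‖c‖ ^ μ + Real.exp (-ρ ^ 2 / 6) := by
    rcases hcase with h | h
    · refine le_add_of_nonneg_of_le cμ (Real.exp_le_exp.2 ?_)
      have : ρ ^ 2 ≤ r₁ ^ 2 := pow_le_pow_left₀ ρ0 ρr 2
      rw [h, mul_pow]
      linarith only [this, sq_nonneg ρ, mul_le_mul_of_nonneg_right hΛ' (sq_nonneg r₁)]
    · refine le_add_of_le_of_nonneg ?_ Eρ.le
      have a1 := low h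
      set P := 2 * C4 * (2 * X ^ 2) ^ m
      have P1 : 1 ≤ P := one_le_mul_of_one_le_of_one_le (by linarith)
        (one_le_pow₀ (by nlinarith only [x12]))
      have a2 : P⁻¹ ≤ ‖c‖ := by rw [inv_le_iff_one_le_mul₀' (by linarith)]; exact a1
      have a3 : P ^ 2 * Real.exp (-c₁ * X ^ 2) ≤ 1 := by
        refine le_of_eq_of_le ?_ p2
        simp only [P]; rw [mul_comm 2 m, pow_mul]; ring
      have a4 : P⁻¹ ^ (2 : ℝ) ≤ P⁻¹ ^ μ := Real.rpow_le_rpow_of_exponent_ge (by positivity)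
        (inv_le_one_of_one_le₀ P1) hμ2
      refine le_trans ?_ (a4.trans (Real.rpow_le_rpow (by positivity) a2 (by linarith)))
      rw [Real.rpow_two, inv_pow, ← one_div, le_div_iff₀ (by positivity)]
      linarith
  have sub : Metric.ball (0 : E) (ρ + 3) ⊆ Metric.ball 0 (θ * X) := Metric.ball_subset_ball ρX
  refine ⟨G, ρ, c, ⟨hP.reg, hP.st, fun p hp hp' => hP.proper p hp ⟨sub hp'.1, trivial⟩,
    fun y hy h => hP.reach y hy (h.trans_le ρX), fun i => by simpa [ofR] using hP.pair i,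
    fun y hy h => hP.el y hy (h.trans_le ρX), ?_, ρr, ?_⟩, ρε, hN⟩
  · refine (lintegral_mono_set sub).trans (hen.trans (ENNReal.ofReal_le_ofReal ?_))
    have b1 : (f X (ofR x)).re ≤ 4 * Real.pi * S.Fs 0 0 1 + ‖f X (ofR x) - f0‖ := by
      have := Complex.re_le_norm (f X (ofR x) - f0)
      rw [Complex.sub_re, hf0, Complex.ofReal_re] at this
      rw [hf0]; linarith
    have b2 : ‖f X (ofR x) - f0‖ ≤ Cc * C3 ^ μ * (4 * (‖c‖ ^ μ + E8)) := by
      refine k2.trans ?_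
      rw [mul_assoc]
      refine mul_le_mul_of_nonneg_left ?_ hCc.le
      refine (Real.rpow_le_rpow (by positivity) kD (by linarith)).trans ?_
      rw [Real.mul_rpow (by linarith) (by positivity)]
      exact mul_le_mul_of_nonneg_left (add_rpow_le (norm_nonneg _) E0.le E1 hμ1.le hμ2)
        (by positivity)
    have b3 : E8 ≤ ‖c‖ ^ μ + Real.exp (-ρ ^ 2 / 6) := le_trans (Real.exp_le_exp.2
      (by linarith only [mul_le_mul_of_nonneg_right c1b (sq_nonneg X)])) tail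
    have b4 : (f X (ofR x)).re / (4 * Real.pi) ≤ S.Fs 0 0 1 +
        2 * (Cc * C3 ^ μ) * (‖c‖ ^ μ + Real.exp (-ρ ^ 2 / 6)) := by
      rw [div_le_iff₀ (by positivity)]
      have := mul_le_mul_of_nonneg_left b3 c5a.le
      linarith only [b1, b2, this, mul_nonneg (mul_nonneg c5a.le (add_nonneg cμ Eρ.le))
        (by linarith only [hp] : 0 ≤ Real.pi - 1), mul_nonneg c5a.le Eρ.le]
    have b5 := mul_le_mul_of_nonneg_left (le_trans (Real.exp_le_exp.2 (show -c₀ * X ^ 2 ≤ -c₁ * X ^ 2 by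
      linarith only [mul_le_mul_of_nonneg_right c1a (sq_nonneg X)])) tail) hCR.le
    simp only [C5]
    linarith only [b4, b5, mul_nonneg c5b.le (add_nonneg cμ Eρ.le)]
  · by_cases h : r₁ ≤ θ * X - 3
    · exact Or.inl (min_eq_left h)
    refine Or.inr ?_
    have eρ : ρ = θ * X - 3 := min_eq_right (not_le.1 h).le
    have hα : ‖aa x‖ * X ^ 2 = 1 / 2 := hcase.resolve_left fun h' => h (by
      rw [h']; nlinarith only [hΛθ, rT, t3])
    have a1 : (2 * X ^ 2) ^ m ≤ (8 / θ ^ 2) ^ m * ρ ^ (2 * m) := by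
      rw [pow_mul, ← mul_pow]
      refine pow_le_pow_left₀ (by positivity) ?_ m
      rw [div_mul_eq_mul_div, le_div_iff₀ (by positivity), eρ]
      nlinarith only [x6]
    refine (low hα).trans (mul_le_mul_of_nonneg_right ?_ (norm_nonneg _))
    have a2 : 0 ≤ ρ ^ (2 * m) := by positivity
    have := mul_le_mul_of_nonneg_left a1 (by linarith : 0 ≤ 2 * C4)
    simp only [C5]
    linarith only [this, mul_nonneg c5a.le a2, mul_nonneg hCR.le a2]

end Crest.Agent.N250.R0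

end
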