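import Crest.Agent.N250.R0.Leaf
import Crest.Agent.N250.R0.CjE
import Crest.Agent.N250.Rm.Br
import Crest.Agent.N250.Av.CoreX

/-!
# Row 250 (helper3): real points of the glued system
-/

set_option autoImplicit false
open Set Complex
open scoped ComplexConjugate
open Crest.GeometryTopology.MCF

noncomputable section

namespace Crest.Agent.N250.R0.CjE

open WS Wr B1 B1.Cj
open Crest.Agent.N250.B2 (aa ofR)
open Crest.Agent.N250.Gi (KK)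

variable {S : Mv} {T : St S}

theorem cB_eq : T.cB = cB T := rfl

theorem cW_eq (σ : Scale T.G) : T.cW σ = cW T σ := rfl

theorem re_of_cj {f : T.G.SmC} (h : T.G.cj f = f) : Rm.Re T.P f := fun p =>
  conj_eq_iff_im.1 (by rw [← Geo.cj_apply, h])

theorem TT_cj (β : T.Bt) : T.TT (star β) = star (T.TT β) := by
  funext j c d
  exact Ro.TT_conj (Ro.fQ_conj _) (fun i => β (j, i)) c d

theorem star_ofR {ι : Type} (x : ι → ℝ) : star (ofR x) = ofR x := funext fun _ => conj_ofReal _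

theorem aa_ofR {ι κ : Type} (x : ι ⊕ κ → ℝ) : aa (ofR x) = ofR (aa x) := rfl

variable (F : Fa T) {σ : Scale T.G} {ξ : F.Ξ σ}

theorem Y_cj (ξ : F.Ξ σ) (c : Fin 3) : F.Y (F.cj ξ) c = T.G.cj (F.Y ξ c) := by
  rw [Fa.Y, Fa.Y, Nq.Dt.cj_Xh, w_cj, ← TT_cj]; rfl

variable {F}

theorem real_w (h : F.cj ξ = ξ) : Rm.Re T.P (F.w ξ) := re_of_cj (by rw [← w_cj, h])

theorem real_Y (h : F.cj ξ = ξ) (c : Fin 3) : Rm.Re T.P (F.Y ξ c) := re_of_cj (by rw [← Y_cj, h])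

theorem real_c (h : F.cj ξ = ξ) (k : F.I) : (F.c ξ k).im = 0 :=
  conj_eq_iff_im.1 (congrFun ((c_cj F ξ).symm.trans (by rw [h])) k)

theorem star_β (h : F.cj ξ = ξ) : star ξ.2.2 = ξ.2.2 := congrArg (·.2.2) h

theorem real_β (h : F.cj ξ = ξ) (q : Fin T.p × Fin 2) : (ξ.2.2 q).im = 0 :=
  conj_eq_iff_im.1 (congrFun (star_β h) q)

theorem β_eq (h : F.cj ξ = ξ) (q : Fin T.p × Fin 2) : ξ.2.2 q = ((ξ.2.2 q).re : ℝ) :=
  Complex.ext rfl (real_β h q)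

theorem real_TT (h : F.cj ξ = ξ) (j : Fin T.p) (c d : Fin 3) : (T.TT ξ.2.2 j c d).im = 0 :=
  conj_eq_iff_im.1 (congrFun (congrFun (congrFun ((TT_cj _).symm.trans (by rw [star_β h])) j) c) d)

theorem real_dat (h : F.cj ξ = ξ) (j : Fin T.p) : Wi.cj (F.dat ξ j) = F.dat ξ j :=
  congrFun ((dat_cj F ξ).symm.trans (by rw [h])) j

theorem real_rW (h : F.cj ξ = ξ) (j : Fin T.p) (q : ℝ × ℝ) : (T.rW j (F.w ξ) q).im = 0 :=
  conj_eq_iff_im.1 (by rw [← rW_cj, ← w_cj, h])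

variable {N : ℕ} {X : ℝ} {a : Fin T.p → ℂ} {j : Fin T.p}

theorem real_zE (h : F.cj ξ = ξ) (ha : star a = a) (h0 : HJ.N0 ≤ N) (hj : HJ.Adm N X (et (a j) X)) :
    cz (F.zE N X a ξ j) = F.zE N X a ξ j := by
  rw [← zE_cj F h0 ξ hj, conj_ofReal, ha, h]

theorem real_vj' {z : Par T.ℓ} (hz : z ∈ Dm T) (hr : cz z = z) (s : II) (θ : ℝ) (i : Fin 6) :
    (vj T.R z.1 z.2.1 (T.U z) s θ i).im = 0 :=
  ((T.hU.real (K1_pos T) T.k.C_pos.le (small T) hz hr).2 s θ i).2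

theorem real_vj (h : F.cj ξ = ξ) (ha : star a = a) (h0 : HJ.N0 ≤ N) (hj : HJ.Adm N X (et (a j) X))
    (hz : F.zE N X a ξ j ∈ Dm T) (s : II) (θ : ℝ) (i : Fin 6) :
    (vj T.R X (a j) (T.U (F.zE N X a ξ j)) s θ i).im = 0 :=
  real_vj' hz (real_zE h ha h0 hj) s θ i

theorem real_AE (c : Sz' T) {z : Par T.ℓ} (hz : z ∈ Dm T) (hr : cz z = z) : (T.AE z).im = 0 :=
  conj_eq_iff_im.1 (by rw [← AE_cj c hz, hr])

theorem sz (h : T.Good) : Sz' T := let ⟨_, _, _, f⟩ := h.fm; f.sz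

section gf

variable {ξ : ℂ × (F.I → ℂ) → F.Ξ σ} {ρ r X1 θ : ℝ} (g : F.Gf N ξ ρ r X1 θ) {w : F.I → ℂ}
  {x : F.I → ℝ}
include g

theorem gf_om (hX : X1 < X) (hw : w ∈ DomA r (KK N - 1 / 4) X) :
    ((X : ℂ), w) ∈ Om r (KK N - 1 / 4) X1 θ :=
  ⟨hX, by simpa using div_pos g.θ_pos (by linarith [g.X1_ge]), hw⟩

theorem gf_N0 (j : Fin T.p) : HJ.N0 ≤ N := (g.en j).big.N0

theorem gf_hj {q : ℂ × (F.I → ℂ)} (hq : q ∈ Om r (KK N - 1 / 4) X1 θ) (j : Fin T.p) :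
    HJ.Adm N q.1 (et (aa q.2 j) q.1) := (g.en j).hj j hq

/-- real points of the family are fixed by the conjugation -/
theorem gf_fix (hX : X1 < X) (hx : ofR x ∈ DomA r (KK N - 1 / 4) X) :
    F.cj (ξ (X, ofR x)) = ξ (X, ofR x) := by rw [← g.cj X hX _ hx, star_ofR]

theorem gf_zE (hX : X1 < X) (hx : ofR x ∈ DomA r (KK N - 1 / 4) X) (j : Fin T.p) :
    cz (F.zE N X (aa (ofR x)) (ξ (X, ofR x)) j) = F.zE N X (aa (ofR x)) (ξ (X, ofR x)) j :=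
  real_zE (gf_fix g hX hx) (star_ofR (aa x)) (gf_N0 g j) (gf_hj g (gf_om g hX hx) j)

theorem gf_vj (hX : X1 < X) (hx : ofR x ∈ DomA r (KK N - 1 / 4) X) (j : Fin T.p) (s : II) (φ : ℝ)
    (i : Fin 6) : (vj T.R X (aa (ofR x) j) (T.U (F.zE N X (aa (ofR x)) (ξ (X, ofR x)) j)) s φ i).im = 0 :=
  real_vj' ((g.sv _ (gf_om g hX hx)).dom j) (gf_zE g hX hx j) s φ i

/-- the action is real at real points, given the symmetry of the core part -/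
theorem gf_Aq (c : Sz' T) (hX : X1 < X) (hx : ofR x ∈ DomA r (KK N - 1 / 4) X)
    (hA : (T.AC (F.Y (ξ (X, ofR x)))).im = 0) : (F.Aq N ξ (X, ofR x)).im = 0 := by
  rw [Fa.Aq, Fa.AT, add_im, hA, zero_add, im_sum]
  exact Finset.sum_eq_zero fun j _ => real_AE c ((g.sv _ (gf_om g hX hx)).dom j) (gf_zE g hX hx j)

end gf

end Crest.Agent.N250.R0.CjE

end
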