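import Crest.Agent.N250.R0.LActB
import Crest.Agent.N250.Av.Sp2

/-!
# Row 250 (helper33): the leaf `ActL`
-/

set_option autoImplicit false

namespace Crest.Agent.N250.R0

theorem actL : ActL := actL_of fun _ T _ => Av2.spl T

end Crest.Agent.N250.R0
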