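import Crest.Agent.N250.R0.Leaf
import Crest.Agent.N250.R0.CjE
import Crest.Agent.N250.Av.CoreX
import Crest.Agent.N250.Av.Bd
import Crest.Agent.N250.Wr.Cut
import Crest.Agent.N250.Wt.All
import Crest.Agent.N250.Gl.Fix2

/-!
# Row 250 (helper37): the action of the glued family is holomorphic, bounded and real
-/

set_option autoImplicit false
open MeasureTheory Set Filter Topology Metric
open scoped ComplexConjugate
open Crest.GeometryTopology.MCF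

noncomputable section

namespace Crest.Agent.N250.R0

open WS Wr B1 Gc
open Crest.Agent.N250.B2 (aa ofR)
open Crest.Agent.N250.Gi (KK)

variable {S : Mv}

namespace A13

variable (T : St S)

theorem ze_one {a b : ℝ} (ha : -7 < a) (h : a < b) (hb : b ≤ 1) (p : S.sl 0)
    (hp : (T.ze a b).1 p ≠ 0) : T.G.ζ.1 p = 1 :=
  zeta_one_of_ne T.P.shr.st (a := T.R + a) (b := T.R + b) (by linarith [T.hR]) (by linarith)
    (by linarith [T.ha']) T.P.hab (p := (p, 0)) p.2 hp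

theorem ze_abs (a b : ℝ) (p : S.sl 0) : |(T.ze a b).1 p| ≤ 1 :=
  abs_le.2 ⟨le_trans (by norm_num) (zeta_nonneg (e := T.e) _ _ (p : E)), zeta_le_one _ _ _⟩

theorem diff_TT : Differentiable ℂ T.TT := by
  refine differentiable_pi.2 fun j => differentiable_pi.2 fun c => differentiable_pi.2 fun d => ?_
  have h : Differentiable ℂ fun (β : T.Bt) (i : Fin 2) => β (j, i) :=
    differentiable_pi.2 fun i => differentiable_apply (j, i)
  exact fun β => DifferentiableAt.comp (g := fun b => Ro.TT (Cj.fQ (T.e.Q j)) b c d)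
    (f := fun (β : T.Bt) (i : Fin 2) => β (j, i)) β (Ro.diff_TT' _ c d _) (h β)

theorem TT_zero : T.TT 0 = 0 := funext fun _ => Ro.TT_zero _

theorem TT_cj (β : T.Bt) : T.TT (star β) = star (T.TT β) := by
  funext j c d
  exact Ro.TT_conj (Ro.fQ_conj (T.e.Q j)) (fun i => β (j, i)) c d

theorem AC_eq (Y : Fin 3 → T.G.SmC) : T.AC Y = T.G.actC (T.G.oR T.ζA) Y := rfl

theorem cA_cont : Continuous T.cA :=
  Complex.continuous_ofReal.comp ((contDiff_st _ _).continuous.comp (by fun_prop))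

theorem cA_le (s : ℝ) : ‖T.cA s‖ ≤ 1 := by
  rw [St.cA, Complex.norm_real, Real.norm_of_nonneg (st_nonneg _ _ _)]; exact st_le_one _ _ _

variable {T} (F : Fa T) {σ : Scale T.G}

theorem good : F.D.Good where
  nZ := by rw [← T.Zn]; exact Finset.sum_congr rfl fun _ _ => mul_comm _ _
  symZ := T.Zs
  symZd := T.Zd
  cχ j := T.P.cs_zetaR_chiR T.P.ha' T.P.hab (a' := T.R + -3 / 2) (b' := T.R + -1)
    (by linarith [T.hR]) (by linarith) j
  cφ := F.grn.cs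
  symcut := T.P.sy_zetaR (a := T.R + 1 / 10) (b := T.R + 1 / 5) (by linarith [T.hR]) (by linarith)
  cut := ze_one T (by norm_num) (by norm_num) (by norm_num)

theorem Y_cj (ξ : F.Ξ σ) : F.Y (F.cj ξ) = fun c => T.G.cj (F.Y ξ c) := funext fun c => by
  rw [Fa.Y, Fa.Y, Nq.Dt.cj_Xh, CjE.w_cj, ← TT_cj]; rfl

/-- `(f, η, β) ↦ (f, η)` -/
def pr (σ : Scale T.G) : F.Ξ σ →L[ℂ] σ.AA × (F.I → ℂ) :=
  (ContinuousLinearMap.fst ℂ _ _).prod
    ((ContinuousLinearMap.fst ℂ _ _).comp (ContinuousLinearMap.snd ℂ _ _))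

/-- the action of the core -/
theorem core (J : σ.Jets F.φ) : ∃ r C : ℝ, 0 < r ∧
    DifferentiableOn ℂ (fun ξ : F.Ξ σ => T.AC (F.Y ξ)) (ball 0 r) ∧ ∀ ξ ∈ ball (0 : F.Ξ σ) r,
      ‖T.AC (F.Y ξ)‖ ≤ C ∧ T.AC (F.Y (F.cj ξ)) = conj (T.AC (F.Y ξ)) := by
  have hT : Differentiable ℂ fun ξ : F.Ξ σ => T.TT ξ.2.2 :=
    fun ξ => DifferentiableAt.comp (g := T.TT) (f := fun ξ : F.Ξ σ => ξ.2.2) ξ (diff_TT T _)
      (by fun_prop)
  obtain ⟨r, r0, h⟩ := (good F).cfam J (pr F σ) (T := fun ξ : F.Ξ σ => T.TT ξ.2.2)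
    (Eventually.of_forall hT) (TT_zero T)
  have c : T.G.CFam {p | T.G.ζ.1 p = 1} (ball 0 r) 1 (fun _ => T.G.oR T.ζA) F.Y :=
    (h T.ζA 1 (ze_one T (by norm_num) (by norm_num) (by norm_num)) (ze_abs T _ _)).1
  refine ⟨r, _, r0, c.diffOn, fun ξ hξ => ⟨c.norm_le hξ, ?_⟩⟩
  have e := c.cj_eq hξ
  rw [Geo.cj_oR] at e
  rw [Y_cj]
  exact e

theorem holAC (J : σ.Jets F.φ) : Gl.HolAt fun ξ : F.Ξ σ => T.AC (F.Y ξ) := by
  obtain ⟨r, C, r0, h, -⟩ := core F J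
  filter_upwards [ball_mem_nhds _ r0] with ξ hξ using h.differentiableAt (isOpen_ball.mem_nhds hξ)

theorem Y_zero : F.Y (0 : F.Ξ σ) = T.G.SC.x := by
  have e : F.w (0 : F.Ξ σ) = 0 := map_zero (σ.wL F.grn)
  rw [Fa.Y, e, ← F.D.Xh_zero]
  exact congrArg _ (TT_zero T)

/-- the action of the core tends to the Gaussian integral of `ζA` -/
theorem AC_lim (J : σ.Jets F.φ) : Tendsto (fun ξ : F.Ξ σ => T.AC (F.Y ξ)) (𝓝 0)
    (𝓝 (∫ p, T.ζA.1 p * Real.exp (-T.G.S.x2.1 p / 4) ∂T.G.M.mu : ℝ)) := by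
  have h := (holAC F J).self_of_nhds.continuousAt.tendsto
  rwa [Y_zero, AC_eq, Geo.actC_x_oR] at h

theorem sg_jets : Sg fun σ : Scale T.G => Nonempty (σ.Jets F.φ) := F.grn.nonempty_jets T.G.mainS

variable {F} {N : ℕ} {ξ : ℂ × (F.I → ℂ) → F.Ξ σ} {ρ r X1 θ : ℝ} (h : F.Gf N ξ ρ r X1 θ)
  (hG : T.Good)
include h hG

theorem AE_diff (j : Fin T.p) : DifferentiableOn ℂ
    (fun q => T.AE (F.zE N q.1 (aa q.2) (ξ q) j)) (Om r (KK N - 1 / 4) X1 θ) := fun q hq =>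
  (Act.actC_diffAt (cA_cont T).continuousOn T.R
    (y := (q.1, q.2 (Sum.inr j), Gi.Jq T.U N j (F.bq ξ j) q))
    (hG.reg _ ((h.sv q hq).dom j)).1).comp_differentiableWithinAt q
    (f := fun q : ℂ × (F.I → ℂ) => (q.1, q.2 (Sum.inr j), Gi.Jq T.U N j (F.bq ξ j) q))
    (differentiableWithinAt_fst.prodMk (DifferentiableWithinAt.prodMk (by fun_prop)
      ((h.en j).diff j q hq)))

theorem AE_le (j : Fin T.p) {q : ℂ × (F.I → ℂ)} (hq : q ∈ Om r (KK N - 1 / 4) X1 θ) :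
    ‖T.AE (F.zE N q.1 (aa q.2) (ξ q) j)‖ ≤ 120 := by
  obtain ⟨_, _, _, f⟩ := hG.fm
  have s := CjE.sl ((h.sv q hq).dom j)
  exact (Av.Mem.of f.sz.ex f.sz.hR f.sz.hK s.1 s.2.jet f.sz.he s.3).actC_le fun s _ => cA_le T s

theorem AE_real (j : Fin T.p) {X : ℝ} {x : F.I → ℝ}
    (hq : ((X : ℂ), ofR x) ∈ Om r (KK N - 1 / 4) X1 θ) (e : F.cj (ξ (X, ofR x)) = ξ (X, ofR x)) :
    (T.AE (F.zE N X (aa (ofR x)) (ξ (X, ofR x)) j)).im = 0 := by
  obtain ⟨_, _, _, f⟩ := hG.fm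
  have e1 := CjE.zE_cj F (h.en j).big.N0 (ξ (X, ofR x)) (a := aa (ofR x)) ((h.en j).hj j hq)
  rw [e, Complex.conj_ofReal, show star (aa (ofR x)) = aa (ofR x) from Gl.star_ofR (aa x)] at e1
  have e2 := CjE.AE_cj f.sz ((h.sv _ hq).dom j)
  exact Complex.conj_eq_iff_im.1 (e2.symm.trans (congrArg T.AE e1.symm))

end A13

open A13 in
/-- parts 1-3 of `ActD` -/
theorem act13 {T : St S} (hG : T.Good) (F : Fa T) : Sg fun σ => F.AllG σ fun N ξ r X1 θ =>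
    DifferentiableOn ℂ (F.Aq N ξ) (Om r (KK N - 1 / 4) X1 θ) ∧
    (∃ C : ℝ, ∀ q ∈ Om r (KK N - 1 / 4) X1 θ, ‖F.Aq N ξ q‖ ≤ C) ∧
    ∀ X : ℝ, X1 < X → ∀ x : F.I → ℝ, ofR x ∈ DomA r (KK N - 1 / 4) X →
      (F.Aq N ξ (X, ofR x)).im = 0 := by
  refine (F.grn.nonempty_jets T.G.mainS).mono fun ε hε σ e => ?_
  obtain ⟨J⟩ := hε σ e
  obtain ⟨ρ, C, ρ0, hd, hb⟩ := core F J
  refine ⟨ρ, ρ0, fun N ξ r X1 θ h => ?_⟩
  have m : ∀ q ∈ Om r (KK N - 1 / 4) X1 θ, ξ q ∈ ball (0 : F.Ξ σ) ρ := fun q hq =>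
    mem_ball_zero_iff.2 (h.small q hq).1
  refine ⟨(hd.comp h.hol m).add (DifferentiableOn.fun_sum fun j _ => AE_diff h hG j),
    ⟨C + ∑ _j : Fin T.p, 120, fun q hq => (norm_add_le _ _).trans (add_le_add (hb _ (m q hq)).1
      (norm_sum_le_of_le _ fun j _ => AE_le h hG j hq))⟩, fun X hX x hx => ?_⟩
  have hq := Gl.real_mem (by linarith [h.X1_ge]) h.θ_pos hX hx
  have e : F.cj (ξ (X, ofR x)) = ξ (X, ofR x) := by rw [← h.cj X hX _ hx, Gl.star_ofR]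
  have e2 := (hb _ (m _ hq)).2
  rw [e] at e2
  change (T.AC _ + ∑ j, T.AE _).im = 0
  rw [Complex.add_im, Complex.im_sum, Complex.conj_eq_iff_im.1 e2.symm, zero_add]
  exact Finset.sum_eq_zero fun j _ => AE_real h hG j hq e

end Crest.Agent.N250.R0

end
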