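import Crest.Agent.N250.R0.Leaf
import Crest.Agent.N250.R0.CjE
import Crest.Agent.N250.Av.Bd
import Crest.Agent.N250.Gl.Fix2

/-!
# Row 250 (helper68): the action along a glued family is holomorphic, bounded and real
-/

set_option autoImplicit false
open MeasureTheory Set Filter Topology Metric
open scoped ComplexConjugate
open Crest.GeometryTopology.MCF

noncomputable section

namespace Crest.Agent.N250.R0

open WS Wr B1 Gc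
open Crest.Agent.N250.B2 (aa ofR)
open Crest.Agent.N250.Gi (KK)
open Crest.Agent.N250.Gl (HolAt yy)

variable {S : Mv} {T : St S}

theorem St.Good.sz (h : T.Good) : CjE.Sz' T := let ⟨_, _, _, h⟩ := h.fm; h.sz

theorem St.cA_cont (T : St S) : Continuous T.cA :=
  Complex.continuous_ofReal.comp ((contDiff_st _ _).continuous.comp (by fun_prop))

theorem St.cA_le (T : St S) (s : ℝ) : ‖T.cA s‖ ≤ 1 := by
  rw [St.cA, Complex.norm_real, Real.norm_of_nonneg (st_nonneg _ _ _)]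
  exact st_le_one _ _ _

theorem St.Good.AE_le (h : T.Good) {z : Par T.ℓ} (hz : z ∈ T.Dm) : ‖T.AE z‖ ≤ 120 :=
  (Av.Mem.of h.sz.ex h.sz.hR h.sz.hK hz (CjE.sl hz).sol.jet h.sz.he (CjE.sl hz).inb).actC_le
    fun s _ => T.cA_le s

namespace Fa

variable {F : Fa T} {σ : Scale T.G}

theorem Gf.mono {N : ℕ} {ξ : ℂ × (F.I → ℂ) → F.Ξ σ} {ρ ρ' r X1 θ : ℝ} (h : F.Gf N ξ ρ r X1 θ)
    (hρ : ρ ≤ ρ') : F.Gf N ξ ρ' r X1 θ :=
  { h with small := fun q hq => ⟨(h.small q hq).1.trans_le hρ, (h.small q hq).2.trans_le hρ⟩ }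

theorem AllG.and {P Q : ℕ → (ℂ × (F.I → ℂ) → F.Ξ σ) → ℝ → ℝ → ℝ → Prop} (h : F.AllG σ P)
    (h' : F.AllG σ Q) : F.AllG σ fun N ξ r X1 θ => P N ξ r X1 θ ∧ Q N ξ r X1 θ :=
  let ⟨ρ, h0, h⟩ := h
  let ⟨ρ', h0', h'⟩ := h'
  ⟨min ρ ρ', lt_min h0 h0', fun N ξ r X1 θ g =>
    ⟨h N ξ r X1 θ (g.mono (min_le_left _ _)), h' N ξ r X1 θ (g.mono (min_le_right _ _))⟩⟩

theorem AllG.mono {P Q : ℕ → (ℂ × (F.I → ℂ) → F.Ξ σ) → ℝ → ℝ → ℝ → Prop} (h : F.AllG σ P)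
    (i : ∀ N ξ ρ r X1 θ, F.Gf N ξ ρ r X1 θ → P N ξ r X1 θ → Q N ξ r X1 θ) : F.AllG σ Q :=
  let ⟨ρ, h0, h⟩ := h
  ⟨ρ, h0, fun N ξ r X1 θ g => i N ξ ρ r X1 θ g (h N ξ r X1 θ g)⟩

/-- a property of small unknowns holds along small families -/
theorem AllG.of_ev {P : F.Ξ σ → Prop} (h : ∀ᶠ x in 𝓝 (0 : F.Ξ σ), P x) :
    F.AllG σ fun N ξ r X1 θ => ∀ q ∈ Om r (KK N - 1 / 4) X1 θ, P (ξ q) :=
  let ⟨ρ, h0, h⟩ := Metric.eventually_nhds_iff_ball.1 h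
  ⟨ρ, h0, fun _ _ _ _ _ g q hq => h _ (mem_ball_zero_iff.2 (g.small q hq).1)⟩

variable {N : ℕ} {ξ : ℂ × (F.I → ℂ) → F.Ξ σ} {ρ r X1 θ : ℝ}

theorem Gf.isOpen (g : F.Gf N ξ ρ r X1 θ) :
    IsOpen (Om (ι := Fin F.n) (κ := Fin T.p) r (KK N - 1 / 4) X1 θ) :=
  Gl.isOpen_Om g.r_pos _ (by linarith [g.X1_ge]) _

theorem Gf.real_mem (g : F.Gf N ξ ρ r X1 θ) {X : ℝ} (hX : X1 < X) {w : F.I → ℂ}
    (hw : w ∈ DomA r (KK N - 1 / 4) X) : ((X : ℂ), w) ∈ Om r (KK N - 1 / 4) X1 θ :=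
  Gl.real_mem (by linarith [g.X1_ge]) g.θ_pos hX hw

theorem zE_eq (N : ℕ) (ξ : ℂ × (F.I → ℂ) → F.Ξ σ) (j : Fin T.p) (q : ℂ × (F.I → ℂ)) :
    T.U (F.zE N q.1 (aa q.2) (ξ q) j) = Gi.Jq T.U N j (F.bq ξ j) q := rfl

/-- the action of one end is holomorphic along the family -/
theorem Gf.AE_diff (g : F.Gf N ξ ρ r X1 θ) (h : T.Good) (j : Fin T.p) :
    DifferentiableOn ℂ (fun q : ℂ × (F.I → ℂ) => T.AE (F.zE N q.1 (aa q.2) (ξ q) j))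
      (Om r (KK N - 1 / 4) X1 θ) := fun q hq => by
  have h1 : DifferentiableWithinAt ℂ (fun q : ℂ × (F.I → ℂ) =>
      (q.1, q.2 (Sum.inr j), Gi.Jq T.U N j (F.bq ξ j) q)) (Om r (KK N - 1 / 4) X1 θ) q :=
    differentiableWithinAt_fst.prodMk (DifferentiableWithinAt.prodMk (by fun_prop)
      ((g.en j).diff j q hq))
  have h2 := (Act.actC_diffAt T.cA_cont.continuousOn T.R
    (y := (q.1, q.2 (Sum.inr j), Gi.Jq T.U N j (F.bq ξ j) q))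
    (h.reg _ ((g.sv q hq).dom j)).1).comp_differentiableWithinAt q h1
  exact h2

/-- real points of the family are fixed by the conjugation -/
theorem Gf.cj_real (g : F.Gf N ξ ρ r X1 θ) {X : ℝ} (hX : X1 < X) {x : F.I → ℝ}
    (hx : ofR x ∈ DomA r (KK N - 1 / 4) X) : F.cj (ξ (X, ofR x)) = ξ (X, ofR x) := by
  rw [← g.cj X hX _ hx, Gl.star_ofR]

end Fa

/-- parts 1-3 of `ActD` -/
theorem actA (h : T.Good) (F : Fa T) (σ : Scale T.G) (hAC : HolAt fun x : F.Ξ σ => T.AC (F.Y x))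
    (hcj : ∀ᶠ x in 𝓝 (0 : F.Ξ σ), T.AC (F.Y (F.cj x)) = conj (T.AC (F.Y x))) :
    F.AllG σ fun N ξ r X1 θ => DifferentiableOn ℂ (F.Aq N ξ) (Om r (KK N - 1 / 4) X1 θ) ∧
      (∃ C : ℝ, ∀ q ∈ Om r (KK N - 1 / 4) X1 θ, ‖F.Aq N ξ q‖ ≤ C) ∧
      ∀ X : ℝ, X1 < X → ∀ x : F.I → ℝ, ofR x ∈ DomA r (KK N - 1 / 4) X →
        (F.Aq N ξ (X, ofR x)).im = 0 := by
  have h1 : ∀ᶠ x in 𝓝 (0 : F.Ξ σ), ‖T.AC (F.Y x)‖ ≤ ‖T.AC (F.Y (0 : F.Ξ σ))‖ + 1 :=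
    (hAC.self_of_nhds.continuousAt.norm.eventually (gt_mem_nhds (lt_add_one _))).mono
      fun _ => le_of_lt
  refine (Fa.AllG.of_ev ((Eventually.and hAC h1).and hcj)).mono fun N ξ ρ r X1 θ g H =>
    ⟨fun q hq => ?_, ⟨‖T.AC (F.Y (0 : F.Ξ σ))‖ + 1 + T.p * 120, fun q hq => ?_⟩, fun X hX x hx => ?_⟩
  · exact ((H q hq).1.1.comp_differentiableWithinAt q (g.hol q hq)).add
      (DifferentiableWithinAt.fun_sum fun j _ => g.AE_diff h j q hq)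
  · refine (norm_add_le _ _).trans (add_le_add (H q hq).1.2 ((norm_sum_le _ _).trans ?_))
    refine (Finset.sum_le_card_nsmul _ _ _ fun j _ => h.AE_le ((g.sv q hq).dom j)).trans ?_
    simp
  · have hq := g.real_mem hX hx
    refine Complex.conj_eq_iff_im.1 ?_
    rw [Fa.Aq, Fa.AT, map_add, map_sum, ← (H _ hq).2, g.cj_real hX hx]
    refine congrArg _ (Finset.sum_congr rfl fun j _ => ?_)
    rw [← CjE.AE_cj h.sz ((g.sv _ hq).dom j),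
      ← CjE.zE_cj F (g.en j).big.N0 _ ((g.en j).hj j hq), g.cj_real hX hx, Complex.conj_ofReal]
    exact congrArg (fun a => T.AE (F.zE N X a _ j)) (Gl.star_ofR (aa x))

end Crest.Agent.N250.R0

end
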