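import Crest.Agent.N250.R0.LAct13
import Crest.Agent.N250.R0.LActA
import Crest.Agent.N250.Av.Lim
import Crest.Agent.N250.Cf.Close
import Crest.Agent.N250.S9.St
import Crest.Agent.N250.Xi.EndC

/-!
# Row 250 (helper37): the limit of the action of the glued family
-/

set_option autoImplicit false
open MeasureTheory Set Filter Topology Metric
open Crest.GeometryTopology.MCF

noncomputable section

namespace Crest.Agent.N250.R0

open WS Wr B1 Gc
open Crest.Agent.N250.B2 (aa ofR)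
open Crest.Agent.N250.Gi (KK)

variable {S : Mv}

namespace A13

theorem ok_real {v : ℝ} (hv : 0 < v) (p q : ℝ) : Act.Ok v p q := by
  refine ⟨Complex.ofReal_ne_zero.2 hv.ne', ?_⟩
  have e : Act.Qf v p q = ((2 * v + p ^ 2 + q ^ 2 / (2 * v) : ℝ) : ℂ) := by
    rw [Act.Qf]; push_cast; rfl
  rw [e]
  exact Complex.ofReal_mem_slitPlane.2 (by positivity)

theorem cA_eq (T : St S) {X s : ℝ} (hX : T.R + 2 ≤ X) :
    T.cA s = (st (T.R + 1 / 10) (T.R + 1 / 3) (xr T.R X s) : ℝ) := by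
  rcases le_total s (1 / 2) with h | h
  · rw [xr_strip _ _ h]; rfl
  · have h1 := (strictMono_xr hX).monotone h
    rw [xr_strip _ _ le_rfl] at h1
    rw [St.cA, st_one (by linarith) (by linarith), st_one (by linarith) (by linarith)]

variable {T : St S} {F : Fa T} {σ : Scale T.G} {N : ℕ} {ξ : ℂ × (F.I → ℂ) → F.Ξ σ} {ρ r X1 θ : ℝ}
  (h : F.Gf N ξ ρ r X1 θ)
include h

theorem ev0 : ∀ᶠ X : ℝ in atTop, X1 < X ∧ (0 : F.I → ℂ) ∈ DomA r (KK N - 1 / 4) X := by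
  filter_upwards [eventually_gt_atTop X1, eventually_gt_atTop 0,
    (tendsto_pow_atTop (α := ℝ) two_ne_zero).eventually_gt_atTop (2 * (KK N - 1 / 4))]
    with X h1 h2 h3
  refine ⟨h1, fun i => by simpa using h.r_pos, fun j => ?_⟩
  have : 2 * (KK N - 1 / 4) / X ^ 2 < 1 := (div_lt_one (by positivity)).2 h3
  have e : ‖(0 : ℂ) * (X : ℂ) ^ 2 / 2 - 1 / 8‖ = 1 / 8 := by simp
  change ‖(0 : ℂ) * (X : ℂ) ^ 2 / 2 - 1 / 8‖ + _ < _
  linarith

theorem ev_small {t : ℝ} (ht : 0 < t) :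
    ∀ᶠ X : ℝ in atTop, ‖ξ (X, 0)‖ < t ∧ ‖F.dat (ξ (X, 0))‖ < t := by
  obtain ⟨δ, h0, hδ⟩ := h.base t ht
  filter_upwards [ev0 h, eventually_gt_atTop δ⁻¹] with X h1 h2
  exact hδ X h2 h1.1 0 h1.2 (by rw [show Gl.yy (0 : F.I → ℂ) = 0 from rfl, norm_zero]; exact h0)

theorem lim0 : Tendsto (fun X : ℝ => ξ (X, 0)) atTop (𝓝 0) :=
  Metric.tendsto_nhds.2 fun t ht => (ev_small h ht).mono fun X hX => by
    rw [dist_zero_right]; exact hX.1

theorem AE_lim (hG : T.Good) (j : Fin T.p) :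
    Tendsto (fun X : ℝ => T.AE (F.zE N X (aa (0 : F.I → ℂ)) (ξ (X, 0)) j)) atTop
      (𝓝 (Av.actI T.R (fun x => (st (T.R + 1 / 10) (T.R + 1 / 3) x : ℝ)) (S9.jS T.e j))) := by
  obtain ⟨_, _, _, f⟩ := hG.fm
  have hd : ∀ᶠ X : ℝ in atTop, F.zE N X (aa (0 : F.I → ℂ)) (ξ (X, 0)) j ∈ T.Dm :=
    (ev0 h).mono fun X hX => (h.sv _ (h.real_mem hX.1 hX.2)).dom j
  refine Av.actC_lim (X := fun X : ℝ => X) (a := fun _ => 0) (K := T.k.K1) (g := 13 / 8)
    (g' := 7 / 4) (J := fun X : ℝ => T.U (F.zE N X (aa (0 : F.I → ℂ)) (ξ (X, 0)) j))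
    (χ := fun _ => T.cA) tendsto_id (hd.mono fun X hX => ?_)
    (Complex.continuous_ofReal.comp (contDiff_st _ _).continuous) (fun x => ?_)
    ((eventually_ge_atTop (T.R + 2)).mono fun X hX s _ => cA_eq T hX) (fun L t ht => ?_)
    fun q hq => ?_
  · have s := CjE.sl hX
    exact Av.Mem.of f.sz.ex f.sz.hR f.sz.hK s.1 s.2.jet f.sz.he s.3
  · rw [Function.comp_apply, Complex.norm_real, Real.norm_of_nonneg (st_nonneg _ _ _)]
    exact st_le_one _ _ _
  · obtain ⟨ϑ, rb, X2, h0, -, h1, hc⟩ := Cf.close f (hG.id j) ht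
    filter_upwards [hd, ev0 h, ev_small h h1, eventually_ge_atTop X2, eventually_ge_atTop 2,
      (tendsto_id.const_mul_atTop h0).eventually_ge_atTop L,
      (tendsto_pow_atTop (α := ℝ) two_ne_zero).eventually_ge_atTop (4 * KK N)]
      with X e1 e2 e3 e4 e5 e6 e7 s φ i hs
    refine hc X 0 (Gi.hN N X 0) (T.b0 j + F.dat (ξ (X, 0)) j) e4 e1
      (Xi.EC.hN_le (h.en j).big.N0 (Gi.adm_mono (by linarith) (e2.2.2 j)) e5 e7) ?_ s φ i
      (hs.trans e6)
    rw [add_sub_cancel_left]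
    exact (norm_le_pi_norm _ j).trans e3.2.le
  · have := T.r_pos (j := j) (T.eR_lt_R.trans hq)
    exact ok_real (v := T.e.r j q ^ 2 / 2) (by positivity) _ _

end A13

open A13 in
/-- `ActL` from the splitting of the Gaussian area of the shrinker -/
theorem actL_of (spl : ∀ (S : Mv) (T : St S), T.Good → ((4 * Real.pi * S.Fs 0 0 1 : ℝ) : ℂ) =
    T.AC T.G.SC.x + ∑ j, Av.actI T.R (fun x => (st (T.R + 1 / 10) (T.R + 1 / 3) x : ℝ))
      (S9.jS T.e j)) : ActL := fun S T hG F =>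
  ((act13 hG F).and (sg_jets F)).mono fun σ ⟨h, ⟨J⟩⟩ _ => h.mono fun N ξ ρ r X1 θ g p =>
    ⟨p.1, p.2.1, p.2.2, by
      rw [spl S T hG, ← Y_zero F (σ := σ)]
      exact ((holAC F J).self_of_nhds.continuousAt.tendsto.comp (lim0 g)).add
        (tendsto_finsetSum _ fun j _ => AE_lim g hG j)⟩

end Crest.Agent.N250.R0

end
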