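import Crest.Agent.N250.R0.Leaf
import Crest.Agent.N250.R0.CjE
import Crest.Agent.N250.Se.Dic
import Crest.Agent.N250.Ec.Quad
import Crest.Agent.N250.Wt.All

/-!
# Row 250 (helper12): the leaf `DatL`
-/

set_option autoImplicit false
open MeasureTheory Set Filter Topology
open Crest.GeometryTopology.MCF

noncomputable section

namespace Crest.Agent.N250.R0

open WS Wr B1 Gc

variable {S : Mv} {T : St S}

namespace LDat

theorem pd_a (j : Fin T.p) : Ec.Pd fun θ => T.rS j (T.R, θ) / T.nu j (T.R, θ) :=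
  St.pd_of (g := fun q => T.rS j q / T.nu j q)
    (fun _ => ((T.cd_rS T.eR_lt_R).mul (T.cd_nu_inv T.eR_lt_R)).congr_of_eventuallyEq
      (.of_forall fun _ => div_eq_mul_inv _ _))
    fun θ => by simp only [T.per_rS j T.R θ, T.per_nu j T.R θ]

theorem pd_b (j : Fin T.p) : Ec.Pd fun θ => (2 * T.nu j (T.R, θ) ^ 2)⁻¹ :=
  St.pd_of (g := fun q => (2 * T.nu j q ^ 2)⁻¹)
    (fun _ => (contDiffAt_const.mul ((T.cd_nu T.eR_lt_R).pow 2)).inv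
      (mul_ne_zero two_ne_zero (pow_ne_zero 2 (T.nu_ne T.eR_lt_R))))
    fun θ => by simp only [T.per_nu j T.R θ]

variable (F : Fa T) {σ : Scale T.G}

/-- the projection on the arguments of the Green operator -/
def pr : F.Ξ σ →L[ℂ] σ.AA × (F.I → ℂ) :=
  (ContinuousLinearMap.fst ℂ _ _).prod
    ((ContinuousLinearMap.fst ℂ _ _) ∘L (ContinuousLinearMap.snd ℂ _ _))

theorem tr_w (J : σ.Jets F.φ) (j : Fin T.p) (ξ : F.Ξ σ) (θ : ℝ) :
    (F.w ξ).1 (T.ψ j (T.R, θ)) = (σ.val ((J.J0 ∘L pr F) ξ)).1 (T.ψ j (T.R, θ)) := by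
  have h1 : T.G.ζ.1 (T.ψ j (T.R, θ)) = 1 := T.ζ_ψ T.eR_lt_R (by simp)
  have h2 : T.G.ι.1 (T.ψ j (T.R, θ)) = 1 := T.ι_ψ (by simp)
  rw [ContinuousLinearMap.comp_apply, J.val0]
  change _ = ((T.G.ζ.1 _ * T.G.ι.1 _ : ℝ) : ℂ) * (F.w ξ).1 _
  rw [h1, h2]; simp

theorem dat_eq (j : Fin T.p) : (fun ξ : F.Ξ σ => F.dat ξ j) = fun ξ => Ec.four 2 fun θ =>
    T.rS j (T.R, θ) / T.nu j (T.R, θ) * (F.w ξ).1 (T.ψ j (T.R, θ)) +
      (2 * T.nu j (T.R, θ) ^ 2)⁻¹ * (F.w ξ).1 (T.ψ j (T.R, θ)) ^ 2 := by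
  funext ξ; simp only [Fa.dat, T.vW_sub]

theorem diff_j (J : σ.Jets F.φ) (j : Fin T.p) : Differentiable ℂ fun ξ : F.Ξ σ => F.dat ξ j := by
  rw [dat_eq]
  exact Ec.quad_diff (T.lo_ψ j T.eR_lt_R) 2 σ (J.J0 ∘L pr F) (pd_a j) (pd_b j)
    (w := fun ξ θ => (F.w ξ).1 (T.ψ j (T.R, θ))) (tr_w F J j)

theorem diff (J : σ.Jets F.φ) : Differentiable ℂ (F.dat (σ := σ)) :=
  differentiable_pi.2 (diff_j F J)

theorem datD (J : σ.Jets F.φ) : F.DatD σ where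
  syn := F.syn_dat
  hol := .of_forall (diff F J)
  zero := funext fun j => (congrFun (dat_eq F j) 0).trans
    (Ec.quad_zero 2 σ (J.J0 ∘L pr F) (w := fun ξ θ => (F.w ξ).1 (T.ψ j (T.R, θ))) (tr_w F J j))
  fd ξ j θ := by
    have h : fderiv ℂ F.dat 0 ξ j = fderiv ℂ (fun ξ : F.Ξ σ => F.dat ξ j) 0 ξ := by
      rw [fderiv_apply (diff F J 0) j]; rfl
    rw [h, dat_eq, Ec.quad_fderiv_zero (T.lo_ψ j T.eR_lt_R) 2 σ (J.J0 ∘L pr F) (pd_a j) (pd_b j)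
      (w := fun ξ θ => (F.w ξ).1 (T.ψ j (T.R, θ))) (tr_w F J j)]
    exact ((pd_a j).mul ((T.lo_ψ j T.eR_lt_R).pd (F.w ξ).2)).syn_four 2 θ
  cj := CjE.dat_cj F

end LDat

/-- **the boundary data** -/
theorem datL : DatL := fun _ T F =>
  (F.grn.nonempty_jets T.G.mainS).mono fun _ h σ e => (h σ e).elim (LDat.datD F)

end Crest.Agent.N250.R0

end

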