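import Crest.Agent.N250.R0.Leaf
import Crest.Agent.N250.R0.CjE
import Crest.Agent.N250.Se.Dic
import Crest.Agent.N250.Em.EF

/-!
# Row 250 (helper4): the leaf `EndL`
-/

set_option autoImplicit false
open Set Filter Topology Metric
open scoped ComplexConjugate
open Crest.GeometryTopology.MCF

noncomputable section

namespace Crest.Agent.N250.R0

open WS B1 Em

namespace LEnd

variable {S : Mv} (T : St S) (j : Fin T.p)

theorem zn : EC.Zn T.G (T.e.Q j) (Ioo (T.R + 1 / 40) (T.R + 1)) (T.Kκ j) :=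
  EC.zn_Kc (T.eR_lt (by norm_num)) isOpen_Ioo fun _ h => ⟨by linarith [h.1], by linarith [h.2]⟩

/-- the lift of a radial variation -/
def lf (g : ℝ × ℝ → ℂ) : T.G.SmC :=
  EC.lift T.G (T.e.Q j) (T.G.oR (T.κ j)) fun q => g q * T.nu j q

/-- the source of a radial variation -/
def Ts (g : ℝ × ℝ → ℂ) : T.G.SmC :=
  T.G.oR T.G.ρ * (T.G.SC.LL (T.G.oR T.χ * lf T j g) - T.G.oR T.χ' * T.G.SC.LL (lf T j g))

theorem op_lf {I : Set ℝ} (Z : EC.Zn T.G (T.e.Q j) I (T.Kκ j)) (hI : I ⊆ Ioi T.e.R) :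
    EC.Op T.G (T.e.Q j) I (T.Kκ j) 0 (lf T j) :=
  (EC.Op.lift ((T.sp_κ j).lift (T.nu j))).congr fun g hg => by
    rw [Z.lift_lift (T.sp_κ j) (T.ok_nu hI) hg, lf]
    simp only [mul_comm]

theorem op_Ts {I : Set ℝ} (Z : EC.Zn T.G (T.e.Q j) I (T.Kκ j)) (hI : I ⊆ Ioi T.e.R) :
    EC.Op T.G (T.e.Q j) I (T.Kκ j) 2 (Ts T j) :=
  ((((op_lf T j Z hI).mul Z _).LL Z).sub Z (((op_lf T j Z hI).LL Z).mul Z _)).mul Z _

theorem sE_eq (z : Par T.ℓ) : T.sE j (T.vU z) = Ts T j (prof T.U T.R (T.rS j) z) := rfl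

theorem sL_eq (d : ℝ × ℝ → ℂ) : T.sL j d = Ts T j fun q => d q / T.rS j q := rfl

theorem vS_re (q : ℝ × ℝ) : T.vS j q = ((T.e.r j q ^ 2 / 2 : ℝ) : ℂ) := by simp [St.vS, St.rS]

variable {T}

/-- the source is a reading -/
theorem ra (h : T.Good) : Sg fun σ : Scale T.G => ∀ j, ∃ M A,
    RA T.U T.R T.k.K1 T.k.ε (T.R + 1 / 40) (T.R + 1) (T.rS j) (Ts T j) σ M A := by
  obtain ⟨c, CD, C, F⟩ := h.fm
  have := T.eR_lt_R
  exact (eventually_all.2 fun j => F.ra (by linarith) (by linarith) le_rfl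
    (rf_of (T.ok_rS (j := j) subset_rfl) isOpen_Ioi fun x hx => by
      change _ < x; linarith [hx.1]) (zn T j)
    (op_Ts T j (zn T j) fun x hx => by change _ < x; linarith [hx.1]) (T.compact_Kκ j)).mono
    fun _ h σ e j => h j σ e

theorem strip (h : T.Good) {t : ℝ} (ht : 0 < t) : ∀ᶠ X : ℝ in atTop,
    ((X : ℂ), 0, wd (T.b0 j) 0) ∈ T.Dm ∧ ∀ y : ℝ × ℝ, y.1 ∈ Icc T.R (T.R + 1) →
      ‖T.vU ((X : ℂ), 0, wd (T.b0 j) 0) y - T.vS j y‖ ≤ t := by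
  obtain ⟨δ, hδ, h⟩ := h.idn j t ht
  filter_upwards [h] with X h
  obtain ⟨h1, h2⟩ := h 0 0 (by simpa using hδ.le) (by simpa using hδ.le)
  refine ⟨h1, fun y hy => ?_⟩
  have := h2 (tS T.R y.1) y.2 0
  rw [xr_tS X hy] at this
  rw [vS_re]
  exact this

theorem isCj (σ : Scale T.G) : IsCj (CjE.cW1 T σ) :=
  ⟨fun _ _ => Prod.ext (map_add _ _ _) (funext fun _ => map_add _ _ _),
    fun _ _ => Prod.ext (σ.cj_smul _ _) (funext fun _ => map_mul _ _ _),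
    fun u => max_le_max (σ.norm_cj _).le ((pi_norm_le_iff_of_nonneg (norm_nonneg _)).2 fun _ =>
      (Complex.norm_conj _).le.trans (norm_le_pi_norm u.2 _))⟩

variable {j} {σ : Scale T.G} {M A : ℝ}

theorem rd (h : T.Good)
    (H : RA T.U T.R T.k.K1 T.k.ε (T.R + 1 / 40) (T.R + 1) (T.rS j) (Ts T j) σ M A) :
    RD T.U T.R T.k.K1 T.k.ε fun z => T.eV σ j (T.vU z) := by
  obtain ⟨c, CD, C, F⟩ := h.fm
  exact RD.prod ⟨M, A, H.rdg⟩ (RD.pi fun i => F.rd_fc ⟨le_rfl, by linarith⟩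
    (T.pd_vS T.eR_lt_R).cd.continuous _)

theorem lim (h : T.Good)
    (H : RA T.U T.R T.k.K1 T.k.ε (T.R + 1 / 40) (T.R + 1) (T.rS j) (Ts T j) σ M A) :
    Tendsto (fun X : ℝ => T.eV σ j (T.vU ((X : ℂ), 0, wd (T.b0 j) 0))) atTop (𝓝 0) := by
  obtain ⟨c, CD, C, F⟩ := h.fm
  have t1 : Tendsto (fun t : ℝ => max (A * (2 * t) ^ (65 / 66 : ℝ)) t) (𝓝[>] 0) (𝓝 0) := by
    have : Continuous fun t : ℝ => max (A * (2 * t) ^ (65 / 66 : ℝ)) t :=
      (continuous_const.mul ((Real.continuous_rpow_const (by norm_num)).comp (by fun_prop))).max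
        continuous_id
    simpa using (this.tendsto 0).mono_left nhdsWithin_le_nhds
  refine Metric.tendsto_nhds.2 fun s hs => ?_
  obtain ⟨t, h1, ht⟩ := ((t1.eventually (gt_mem_nhds hs)).and self_mem_nhdsWithin).exists
  have ht : 0 < t := ht
  filter_upwards [strip j h ht] with X ⟨hz, hX⟩
  rw [dist_zero_right]
  refine lt_of_le_of_lt (max_le_max (H.small _ hz _ (by positivity) fun y hy => ?_)
    ((pi_norm_le_iff_of_nonneg ht.le).2 fun i => Ra.fc_norm_le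
      (fun θ => hX (T.R, θ) ⟨le_rfl, by linarith⟩) _)) h1
  have hy' : y.1 ∈ Icc T.R (T.R + 1) := ⟨by linarith [hy.1], hy.2.le⟩
  have r1 := T.r_gt (j := j) (T.eR_lt_R.trans_le hy'.1)
  have e : T.rS j y = sq2 (T.vS j y) := by
    rw [vS_re, sq2_ofReal (by linarith)]; rfl
  rw [prof, e]
  refine (sq2_lip (le_trans (by norm_num) (F.re_vS hz hy')) ?_).trans (by gcongr; exact hX y hy')
  rw [vS_re, Complex.ofReal_re]
  nlinarith

end LEnd

/-- **the end maps** -/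
theorem endL : EndL := fun S T h => (LEnd.ra h).mono fun σ H => by
  obtain ⟨c, CD, C, F⟩ := h.fm
  choose M A H using H
  have hR := fun j => LEnd.rd h (H j)
  obtain ⟨x0, x1, x2, A', rb, L⟩ := F.exists_lm hR h.hb0
  have hc := fun j z hz => CjE.eV_vU_cj (T := T) (z := z) F.sz σ j hz
  have := F.c_pos
  have := F.CD_pos
  have := L.A_nonneg
  exact ⟨EnO x0 x1 x2, rb, 2 * A' * (CD / c ^ 6), L.rb_pos, by positivity, L.hol,
    L.zero fun j => LEnd.lim h (H j), L.cj F hR (CjE.b0_cj T) hc (LEnd.isCj σ),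
    fun j => ⟨c, A', x0 j, x1 j, x2 j, L.exp j, fun _ _ => rfl⟩,
    (L.ef F hR (CjE.b0_cj T) hc).mono fun N ⟨X0, C', k, e⟩ => ⟨X0, _, C', k, e⟩⟩

end Crest.Agent.N250.R0

end
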