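import Crest.Agent.N250.R0.Core
import Crest.Agent.N250.Wr.Z
import Crest.Agent.N250.Ec.Tube
import Crest.Agent.N250.B1.End5

/-!
# Row 250 (helper75): existence of the setting `St`
-/

set_option autoImplicit false
open MeasureTheory Set Filter Topology
open scoped InnerProductSpace
open Crest.GeometryTopology.MCF

noncomputable section

namespace Crest.Agent.N250

namespace B1

theorem IsEnd.shrink {R K g g' ε ε' ε1 C : ℝ} {ℓ : Ell} {U : Par ℓ → Jt ℓ}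
    (h : IsEnd R K g g' ε ε1 C ℓ U) (hε : ε' ≤ ε) : IsEnd R K g g' ε' ε1 C ℓ U := by
  have hs : Dom (ℓ := ℓ) R K g g' ε' ⊆ Dom R K g g' ε := fun z hz =>
    ⟨hz.1, hz.2.1, hz.2.2.1, hz.2.2.2.1, hz.2.2.2.2.trans_le hε⟩
  exact ⟨h.hol.mono hs, fun z hz => h.sol z (hs hz), fun z hz => h.bd z (hs hz),
    fun z hz => h.uniq z (hs hz)⟩

end B1

namespace R0

open WS Wr B1

theorem ell_sm {c c' R : ℝ} (hc : 0 < c) (h : c ≤ c') (hR : 0 < R) : (ell (c / R)).Sm c' R :=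
  fun m => by
    change |c / R| * |(m : ℝ)| ≤ _
    rw [abs_of_pos (by positivity), div_mul_eq_mul_div]
    gcongr

theorem triv_sm {c R : ℝ} (hc : 0 < c) (hR : 0 < R) : Ell.triv.Sm c R := fun m => by
  change (0 : ℝ) ≤ _
  positivity

/-- the end solver exists for all small symbols and all large `R` -/
def Cst.Ok (k : Cst) (R1 : ℝ) : Prop :=
  1 ≤ R1 ∧ ∀ R, R1 ≤ R → ∀ ℓ : Ell, ℓ.Sm k.c0 R →
    ∃ U, IsEnd R k.K1 (13 / 8) (7 / 4) k.ε k.ε1 k.C ℓ U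

theorem exists_cst {e0 c1 : ℝ} (h0 : 0 < e0) (K0 : ℝ) (hc1 : 0 < c1) : ∃ (k : Cst) (R1 : ℝ),
    k.ε1 ≤ e0 ∧ k.ε ≤ e0 ∧ K0 ≤ k.K1 ∧ k.c0 ≤ c1 ∧ k.Ok R1 := by
  obtain ⟨R1, K1, c0, ε, ε1, C, hR, hK, hc, hε, hC, h1, h2, h⟩ :=
    endS_holds (13 / 8) (7 / 4) (by norm_num [B1.Ex]) e0 h0
  have h3 : C * (3 / max K1 K0 + min ε e0) ≤ ε1 / 4 := by
    refine le_trans ?_ h2
    gcongr
    · exact le_max_left _ _
    · exact min_le_left _ _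
  refine ⟨⟨min ε e0, ε1, C, max K1 K0, min c0 c1, lt_min hε h0, hC, hK.trans (le_max_left _ _),
    lt_min hc hc1, h3⟩, R1, h1, min_le_right _ _, le_max_right _ _, min_le_right _ _, hR,
    fun R hR' ℓ hl => ?_⟩
  obtain ⟨U, hU⟩ := h R (max K1 K0) hR' (le_max_left _ _) ℓ fun m => (hl m).trans (by
    have : 0 < R := by linarith
    gcongr
    exact min_le_left _ _)
  exact ⟨U, hU.shrink (min_le_left _ _)⟩

variable {S : Mv}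

theorem Cst.Ok.st {k : Cst} {R1 Λ : ℝ} (hk : k.Ok R1) (hS : S.IsShr) (hΛ : S.AR Λ) (e : Ends S)
    {b : ℕ} (h2 : 2 ≤ b) (hb : ∀ p ∈ S.M, 2 * S.A2 p + 4 ≤ b) :
    ∃ R2 : ℝ, ∀ R, R2 ≤ R → ∃ T : St S, T.P.e = e ∧ T.P.b = b ∧ T.R = R ∧ T.k = k := by
  obtain ⟨s₀, h₀⟩ := nw_far hS.reg hS.st (e := e) one_pos
  refine ⟨max R1 (max (e.R + 7) (s₀ + 6)), fun R hR => ?_⟩
  have r1 : R1 ≤ R := (le_max_left _ _).trans hR
  have r2' : e.R + 7 ≤ R := ((le_max_left _ _).trans (le_max_right _ _)).trans hR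
  have r3 : s₀ + 6 ≤ R := ((le_max_right _ _).trans (le_max_right _ _)).trans hR
  have r0 : 0 < R := by linarith [hk.1]
  obtain ⟨U, hU⟩ := hk.2 R r1 _ (ell_sm k.c0_pos le_rfl r0)
  obtain ⟨U0, hU0⟩ := hk.2 R r1 _ (triv_sm k.c0_pos r0)
  have ha : e.R < R - 6 := by linarith
  have hab : R - 6 < R - 5 := by linarith
  let P : Prm S := ⟨e, Λ, R - 6, R + 1, R + 2, b, hS, hΛ, ha, by linarith, by linarith,
    hb, h2⟩
  refine ⟨⟨P, R, k, P.Zc ha hab, Ec.psi e, U, U0, r2', rfl, rfl, rfl, fun j q hq => Ec.psi_val hq,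
    ?_, P.sy_Zc ha hab, P.sy_dr_Zc ha hab, fun j p hp a => ?_, fun j p hp => ?_, hU, hU0⟩,
    rfl, rfl, rfl, rfl⟩
  · rw [← P.n_Zc ha hab]
    exact Finset.sum_congr rfl fun a _ => mul_comm _ _
  · rw [P.Zc_apply, Zf_tube hS.st ha hab p.2 hp, div_eq_inv_mul]
    rfl
  · have h1 := h₀ j (p, 0) p.2 (tube_mono (by linarith) hp)
    obtain ⟨q, hq, -, rfl⟩ := Ec.exists_psi hS.st ha.le p hp
    have hq' : e.R < q.1 := ha.trans hq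
    have h3 := (e.near j q hq').1
    rw [Ec.r2_psi hq'] at h1
    change 1 / 2 ≤ |nw e j (Ec.psi e j q, 0)|
    refine abs_le_of_sq_le_sq' ?_ (abs_nonneg _) |>.2
    rw [sq_abs]
    nlinarith

theorem exists_st {e0 c1 Λ : ℝ} (hS : S.IsShr) (hΛ : S.AR Λ) (e : Ends S) {b : ℕ} (h2 : 2 ≤ b)
    (hb : ∀ p ∈ S.M, 2 * S.A2 p + 4 ≤ b) (h0 : 0 < e0) (K0 : ℝ) (hc1 : 0 < c1) :
    ∃ k : Cst, k.ε1 ≤ e0 ∧ k.ε ≤ e0 ∧ K0 ≤ k.K1 ∧ k.c0 ≤ c1 ∧ ∃ R1 : ℝ,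
      ∀ R, R1 ≤ R → ∃ T : St S, T.P.e = e ∧ T.P.b = b ∧ T.R = R ∧ T.k = k := by
  obtain ⟨k, R1, h1, h2', h3, h4, h5⟩ := exists_cst h0 K0 hc1
  exact ⟨k, h1, h2', h3, h4, h5.st hS hΛ e h2 hb⟩

end R0

end Crest.Agent.N250

end
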