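import Crest.Agent.N250.R0.Leaf
import Crest.Agent.N250.R0.StEx

/-!
# Row 250 (helper75): the leaf `ExL`
-/

set_option autoImplicit false

namespace Crest.Agent.N250.R0

theorem exL : ExL := by
  rintro S Λ hS hΛ e P ⟨e0, K0, c1, h0, hc, h⟩
  obtain ⟨b, h2, hb⟩ := Wr.exists_b hS e
  obtain ⟨k, h1, h3, h4, h5, R1, hR⟩ := exists_st hS hΛ e h2 (hb b le_rfl) h0 K0 hc
  obtain ⟨R2, h⟩ := h k h3 h1 h4 h5
  obtain ⟨T, e1, -, e2, e3⟩ := hR (max R1 R2) (le_max_left _ _)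
  exact ⟨T, e1, h T e1 e3 (e2 ▸ le_max_right _ _)⟩

end Crest.Agent.N250.R0
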