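import Crest.Agent.N250.R0.Leaf
import Crest.Agent.N250.Se.Dic
import Crest.Agent.N250.Em.Rd
import Crest.Agent.N250.S9.Idt
import Crest.Agent.N250.B1.All

/-!
# Row 250 (helper84): the ends are good
-/

set_option autoImplicit false
open Set Filter Topology
open Crest.GeometryTopology.MCF

noncomputable section

namespace Crest.Agent.N250.R0

open B1

variable {S : Mv}

theorem St.b0_eq' (T : St S) (j : Fin T.p) : T.b0 j = S9.b0 T.e j T.R := by
  rw [S9.b0_eq_four, St.b0]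
  simp only [T.vS_real, S9.vS]

theorem goodL : GoodL := by
  intro S e
  by_cases hS : S.IsShr
  swap
  · exact Ev.of_forall fun T _ => absurd T.shr hS
  obtain ⟨R1, K1, c1, e0, hc1, he0, hf⟩ := Em.fm_of driftS_holds (Ch := 6015) (by norm_num)
  refine ⟨min e0 (1 / 100), K1, c1, by positivity, hc1, fun k _ h2 h3 h4 => ?_⟩
  have hi := eventually_all.2 fun j => S9.ident hS e j Em.ex_138 k.ε_pos k.ε1_pos k.C_pos.le
  obtain ⟨R2, hR2⟩ := eventually_atTop.1 hi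
  refine ⟨max R1 R2, fun T e1 e2 e3 => ?_⟩
  subst e1 e2
  have hi := hR2 T.R ((le_max_right _ _).trans e3)
  obtain ⟨c, CD, C, hF⟩ := hf T.ℓ T.R T.k.K1 T.k.c0 T.k.ε T.k.ε1 T.k.C T.U ((le_max_left _ _).trans e3)
    h3 T.k.c0_pos h4 (h2.trans (min_le_left _ _)) T.k.ε_pos T.k.C_pos.le T.k.small (fun _ => rfl) T.hU
  refine ⟨⟨c, CD, C, hF⟩, h2.trans (min_le_right _ _), fun j => ?_, fun j => ?_, fun z hz => ?_⟩
  · rw [T.b0_eq']; exact (hi j).1
  · rw [T.b0_eq']; exact (hi j).2 _ T.k.K1_ge T.k.small' _ _ _ T.hU T.hU0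
  · have h3 := Rg.IsJet.co3 (T.hU.sol z hz).jet
    have hB := Cj.inB_of' T.hU hF.K_pos hF.C0_nonneg hF.sm' hz
    refine ⟨Rg.regJ Em.ex_138 hF.sz.hR hF.sz.hK hF.sz.he hz h3 hB, fun s θ => Or.inl ?_⟩
    have h1 := (Rg.reg_q Em.ex_138 hF.sz.hR hF.sz.hK hF.sz.he hz h3 hB s θ).1
    have h2 := (Rg.pt_of_dom hF.sz.hR T.k.K1_ge hz s).re_pos
    simp only [Complex.mul_re, Complex.re_ofNat, Complex.im_ofNat, zero_mul, sub_zero]
    linarith

end Crest.Agent.N250.R0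

end
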