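import Crest.Agent.N250.R0.Leaf
import Crest.Agent.N250.Av.CoreR
import Crest.Agent.N250.Wt.All

/-!
# Row 250 (helper13): the leaf `IIL`
-/

set_option autoImplicit false
open Filter Topology
open Crest.GeometryTopology.MCF

namespace Crest.Agent.N250.R0

open WS

theorem Fa.sg_jetsI {S : Mv} {T : St S} (F : Fa T) : Sg fun σ => Nonempty (σ.Jets F.φ) :=
  F.grn.nonempty_jets T.G.mainS

theorem Fa.iid {S : Mv} {T : St S} (F : Fa T) {σ : Scale T.G} (Jt : σ.Jets F.φ) : F.IID σ where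
  hol := Av.hol_II' F Jt
  zero := funext (Av.II_zero F)
  fd ξ := funext fun k => by
    rw [← Av.fd_II F Jt k ξ, fderiv_pi fun k => (Av.hol_II F Jt k).self_of_nhds]; rfl
  cj := (Av.II_cj F Jt).mono fun _ h => funext h

theorem iiL : IIL := fun _ _ F => F.sg_jetsI.mono fun _ ⟨Jt⟩ => F.iid Jt

end Crest.Agent.N250.R0
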