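import Crest.Agent.N250.R0.Leaf
import Crest.Agent.N250.Se.Dic
import Crest.Agent.N250.Em.Rd
import Crest.Agent.N250.Lp.Psi
import Crest.Agent.N250.Jc.Main

/-!
# Row 250 (helper77): the derivative of the limit end map consists of Jacobi fields
-/

set_option autoImplicit false
open Set Filter Topology
open scoped ContDiff
open Crest.GeometryTopology.MCF

noncomputable section

namespace Crest.Agent.N250.R0

namespace Jl

open WS Wr B1 EC Po Lp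

/-- the derivative of a family of quadratic expansions -/
theorem fd_link {ι B W : Type} [Fintype ι] [NormedAddCommGroup B] [NormedSpace ℂ B]
    [NormedAddCommGroup W] [NormedSpace ℂ W] {En : (ι → ℂ) × (ι → B) → ι → W}
    (hE : DifferentiableAt ℂ En 0) {j : ι} {c0 c1 c2 : B → W} (h0 : DifferentiableAt ℂ c0 0)
    (h1 : DifferentiableAt ℂ c1 0) (h2 : DifferentiableAt ℂ c2 0)
    (e : ∀ a b, En (a, b) j = c0 (b j) + a j • c1 (b j) + a j ^ 2 • c2 (b j)) (a : ι → ℂ)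
    (b : ι → B) : fderiv ℂ En 0 (a, b) j = fderiv ℂ c0 0 (b j) + a j • c1 0 := by
  have l : ∀ {V : Type} [NormedAddCommGroup V] [NormedSpace ℂ V] (v : V),
      HasDerivAt (fun t : ℂ => t • v) v 0 := fun v => by
    simpa using (hasDerivAt_id (0 : ℂ)).smul_const v
  have c : ∀ {V V' : Type} [NormedAddCommGroup V] [NormedSpace ℂ V] [NormedAddCommGroup V']
      [NormedSpace ℂ V'] {f : V → V'} (_ : DifferentiableAt ℂ f 0) (v : V),
      HasDerivAt (fun t : ℂ => f (t • v)) (fderiv ℂ f 0 v) 0 := fun hf v =>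
    hf.hasFDerivAt.comp_hasDerivAt_of_eq 0 (l v) (zero_smul _ _).symm
  have k1 := hasDerivAt_pi.1 (c hE (a, b)) j
  have k2 := ((c h0 (b j)).add ((l (a j)).smul (c h1 (b j)))).add
    (((l (a j)).pow 2).smul (c h2 (b j)))
  have k3 := k1.unique (k2.congr_of_eventuallyEq (.of_forall fun t => e (t • a) (t • b)))
  simpa using k3

variable {S : Mv} (T : St S) (j : Fin T.p)

/-- the strip -/
abbrev I0 : Set ℝ := Ioo (T.R + 1 / 40) (T.R + 1)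

theorem sub0 : I0 T ⊆ Ioi T.e.R := fun _ h => (T.eR_lt (a := 1 / 40) (by norm_num)).trans h.1

theorem zn : Zn T.G (T.e.Q j) (I0 T) (T.Kκ j) :=
  zn_Kc (T.eR_lt (by norm_num)) isOpen_Ioo fun _ h => ⟨by linarith [h.1], by linarith [h.2]⟩

/-- the operator behind `sE` and `sL` -/
def sO (g : ℝ × ℝ → ℂ) : T.G.SmC :=
  T.G.oR T.G.ρ * (T.G.SC.LL (T.G.oR T.χ * lift T.G (T.e.Q j) (T.G.oR (T.κ j)) g) -
    T.G.oR T.χ' * T.G.SC.LL (lift T.G (T.e.Q j) (T.G.oR (T.κ j)) g))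

theorem op_sO : Op T.G (T.e.Q j) (I0 T) (T.Kκ j) 2 (sO T j) :=
  have Z := zn T j
  have l : Op T.G (T.e.Q j) (I0 T) (T.Kκ j) 0 _ := Op.lift (T.sp_κ j)
  (((l.mul Z _).LL Z).sub Z ((l.LL Z).mul Z _)).mul Z _

theorem op_nu : Op T.G (T.e.Q j) (I0 T) (T.Kκ j) 2 fun g => sO T j fun y => g y * T.nu j y := by
  have Z := zn T j
  have hν := T.ok_nu (j := j) (sub0 T)
  have l : Op T.G (T.e.Q j) (I0 T) (T.Kκ j) 0 fun g =>
      lift T.G (T.e.Q j) (T.G.oR (T.κ j)) fun y => g y * T.nu j y :=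
    (Op.lift ((T.sp_κ j).lift (T.nu j))).congr fun g hg => T.G.extC fun p => by
      rw [Z.lift_apply (T.sp_κ j) (hg.mul hν), Z.lift_apply ((T.sp_κ j).lift _) hg,
        Z.lift_apply (T.sp_κ j) hν]
      ring
  exact (((l.mul Z _).LL Z).sub Z ((l.LL Z).mul Z _)).mul Z _

/-- `sE` at a point is a `C¹` function of a 2-jet on the strip, with derivative `sL` -/
theorem psi (p : S.sl 0) : ∃ (q : ℝ × ℝ) (Ψ : (Fin 6 → ℂ) → ℂ), q.1 ∈ I0 T ∧
    ContDiffAt ℂ 1 Ψ (jet (T.vS j) q) ∧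
    (∀ v, Ok (I0 T) v → (∀ y : ℝ × ℝ, y.1 ∈ I0 T → 0 < (v y).re) → (T.sE j v).1 p = Ψ (jet v q)) ∧
    ∀ d, Ok (I0 T) d → fderiv ℂ Ψ (jet (T.vS j) q) (jet d q) = (T.sL j d).1 p := by
  have hr := T.ok_rS (j := j) (sub0 T)
  have hν := T.ok_nu (j := j) (sub0 T)
  by_cases hp : p ∈ T.Kκ j
  · obtain ⟨Ψ, h1, h2, h3⟩ := exists_psi (zn T j) (op_sO T j) hr
      (fun _ hy => T.r_pos (sub0 T hy)) hν p
    have hq := (zn T j).mem p hp
    exact ⟨_, Ψ, hq, h1 _ (re_vS (T.r_pos (sub0 T hq))), h2, h3⟩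
  · refine ⟨(T.R + 1 / 2, 0), fun _ => 0, ⟨by norm_num, by norm_num⟩, contDiffAt_const,
      fun v hv h => (op_sO T j).sp (((ok_sq2 isOpen_Ioo hv h).sub hr).mul hν) p hp, fun d hd => ?_⟩
    refine Eq.trans (by simp) ((op_sO T j).sp
      ((ok_div isOpen_Ioo hd hr fun _ hy => T.rS_ne (sub0 T hy)).mul hν) p hp).symm

theorem ok_jac {d : ℝ × ℝ → ℂ} {v : ℝ × ℝ → ℂ} (h : Lg.Jac v T.R d) : Ok (I0 T) d :=
  ⟨h.sm.mono fun _ hy => ⟨by have := hy.1.1; simp only [mem_Ioi]; linarith, trivial⟩, h.per⟩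

variable {T} {Ch c CD C c0 : ℝ} (F : Em.Fm T.U T.R T.k.K1 T.k.ε T.k.ε1 T.k.C Ch c CD C c0)
include F

/-- the end maps are readings of the family -/
theorem rd : Sg fun σ => ∀ j, (∀ z ∈ T.Dm, σ.val (T.eV σ j (T.vU z)).1 = T.sE j (T.vU z)) ∧
    Em.RD T.U T.R T.k.K1 T.k.ε fun z => T.eV σ j (T.vU z) := by
  have h := fun j => F.ra (a := T.R + 1 / 40) (b := T.R + 1) (by linarith) (by linarith) le_rfl
    (Em.rf_of (T.ok_rS (j := j) subset_rfl) isOpen_Ioi fun _ h =>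
      (T.eR_lt (a := 1 / 40) (by norm_num)).trans_le h.1) (zn T j) (op_nu T j) (T.compact_Kκ j)
  filter_upwards [eventually_all.2 h] with e h σ hσ j
  obtain ⟨M, A, k⟩ := h j σ hσ
  exact ⟨k.val, Em.RD.prod ⟨M, A, k.rdg⟩ (Em.RD.pi fun i =>
    F.rd_fc ⟨le_rfl, by linarith⟩ (T.pd_vS T.eR_lt_R).cd.continuous _)⟩

theorem cut {X : ℝ} {a : ℂ} (h : Jc.Ez T.R T.k.K1 c X a) : T.R + 2 ≤ X := by
  linarith [h.h1, F.sz.hR]

theorem val_e1 {σ : Scale T.G} (h : ∀ z ∈ T.Dm, σ.val (T.eV σ j (T.vU z)).1 = T.sE j (T.vU z))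
    {p : S.sl 0} {q : ℝ × ℝ} {Ψ : (Fin 6 → ℂ) → ℂ} (hq : q.1 ∈ I0 T)
    (k : ∀ v, Ok (I0 T) v → (∀ y : ℝ × ℝ, y.1 ∈ I0 T → 0 < (v y).re) → (T.sE j v).1 p = Ψ (jet v q))
    (X : ℝ) (a : ℂ) (b : Wi (omP 2)) (ha : Jc.Ez T.R T.k.K1 c X a)
    (hb : b ∈ Em.Ub T.R T.k.ε (T.b0 j)) :
    (σ.evL p ∘L ContinuousLinearMap.fst ℂ σ.AA (Fin 3 → ℂ)) (T.e1 σ j X a 0 b) =
      Ψ (jet (Jc.vv T.R T.U (T.b0 j) X a b) q) := by
  have hz : T.zz j X a 0 b ∈ T.Dm := ha.dom F hb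
  have e : jet (Jc.vv T.R T.U (T.b0 j) X a b) q = jet (T.vU (T.zz j X a 0 b)) q :=
    jet_congr (((isOpen_Ioo.preimage continuous_fst).eventually_mem hq).mono fun y hy =>
      vX_strip (cut F ha) (le_of_lt hy.2))
  rw [e, ← k (T.vU (T.zz j X a 0 b)) ⟨(F.strip (by linarith) le_rfl).1.contDiffOn hz,
    fun _ _ => vS_per ..⟩ fun y hy => lt_of_lt_of_le (by norm_num) (F.re_vS hz ⟨by linarith [hy.1], hy.2.le⟩), ← h _ hz]
  rfl

theorem mode_e1 (σ : Scale T.G) (i : Fin 3) (X : ℝ) (a : ℂ) (b : Wi (omP 2))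
    (ha : Jc.Ez T.R T.k.K1 c X a) (_ : b ∈ Em.Ub T.R T.k.ε (T.b0 j)) :
    (ContinuousLinearMap.proj i ∘L ContinuousLinearMap.snd ℂ σ.AA (Fin 3 → ℂ))
      (T.e1 σ j X a 0 b) = Lg.bc T.R (Jc.vv T.R T.U (T.b0 j) X a b) ((i : ℤ) - 1) -
        Ra.fc (fun θ => T.vS j (T.R, θ)) ((i : ℤ) - 1) := by
  have e : ∀ θ, Jc.vv T.R T.U (T.b0 j) X a b (T.R, θ) = T.vU (T.zz j X a 0 b) (T.R, θ) := fun θ =>
    vX_strip (cut F ha) (by simp)
  simp only [Lg.bc, e]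
  exact Ra.fc_sub (Em.cont_vS _ _ ⟨le_rfl, by linarith⟩) (T.pd_vS T.eR_lt_R).cd.continuous _

theorem diff_e1 {σ : Scale T.G} (h : Em.RD T.U T.R T.k.K1 T.k.ε fun z => T.eV σ j (T.vU z))
    (hb : 0 ∈ Em.Ub T.R T.k.ε (T.b0 j)) :
    ∀ᶠ X : ℝ in atTop, DifferentiableAt ℂ (fun a => T.e1 σ j X a 0 0) 0 := by
  obtain ⟨M, A, h⟩ := h
  filter_upwards [Jc.ev_ez T.R T.k.K1] with X hX
  have h0 : 0 < X := by linarith [hX.1, T.R_pos]
  have hc := F.c_pos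
  exact (h.diffAt (V := Metric.ball 0 (4 * c / X ^ 2)) (X := fun _ => (X : ℂ)) (a := id)
    (h := fun _ => 0) (b := fun _ => 0) (T.b0 j) (differentiableOn_const _) differentiableOn_id
    (differentiableOn_const _) (differentiableOn_const _) fun a ha =>
      ⟨Jc.Ez.dom F ⟨hX.1, hX.2, (mem_ball_zero_iff.1 ha).le⟩ hb, h0⟩).differentiableAt
    (Metric.ball_mem_nhds _ (by positivity))

omit F in
theorem lim (hG : T.Good) (q : ℝ × ℝ) (hq : T.R ≤ q.1) :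
    Tendsto (fun X : ℝ => Jc.vv T.R T.U (T.b0 j) X 0 0 q) atTop (𝓝 (T.vS j q)) := by
  refine Metric.tendsto_nhds.2 fun t ht => ?_
  obtain ⟨δ, hδ, h⟩ := hG.idn j _ (half_pos ht)
  filter_upwards [h, eventually_ge_atTop (T.R + 2), eventually_ge_atTop q.1] with X x1 x2 x3
  have := (x1 0 0 (by simpa using hδ.le) (by simpa using hδ.le)).2 (tX T.R X q.1) q.2 0
  rw [xr_tX x2 ⟨hq, x3⟩] at this
  have e : S9.jS T.e j (q.1, q.2) 0 = T.vS j q := (T.vS_real j q).symm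
  rw [dist_eq_norm, ← e, Jc.vv, Jc.zb, add_zero]
  exact this.trans_lt (half_lt_self ht)

end Jl

open Jl in
/-- **the derivative of the limit end map consists of Jacobi fields** -/
theorem jacL : JacL := fun S T hG => by
  obtain ⟨c, CD, C, F⟩ := hG.fm
  refine (rd F).mono fun σ h En rb C0 hE => ?_
  have hb : ∀ j, 0 ∈ Em.Ub T.R T.k.ε (T.b0 j) := fun j => by
    have := hG.hb0 j
    rwa [← add_zero (T.b0 j)] at this
  have se : ∀ j, Jc.Se T.U T.R T.k.K1 T.k.ε T.k.ε1 T.k.C 6015 c CD C (T.k.c0 / T.R) (T.b0 j)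
      (T.vS j) := fun j => ⟨F, hG.hb0 j, (T.ok_vS fun _ h => T.eR_lt_R.trans h).sm, lim j hG⟩
  have fd : ∀ j, ∃ c' A c0 c1 c2, El.Exp (fun X a b => T.e1 σ j X a 0 b)
      (Em.Ub T.R T.k.ε (T.b0 j)) c' c0 c1 c2 A ∧
      ∀ a b, fderiv ℂ En 0 (a, b) j = fderiv ℂ c0 0 (b j) + a j • c1 0 := fun j => by
    obtain ⟨c', A, c0, c1, c2, h1, h2⟩ := hE.link j
    have n := (Em.isOpen_Ub _ _ _).mem_nhds (hb j)
    exact ⟨c', A, c0, c1, c2, h1, fd_link hE.hol.self_of_nhds (h1.d0.differentiableAt n)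
      (h1.d1.differentiableAt n) (h1.d2.differentiableAt n) h2⟩
  refine ⟨fun b j => ?_, fun j => ?_⟩
  · obtain ⟨c', A, c0, c1, c2, h1, h2⟩ := fd j
    have J := (se j).j1 (b j)
    rw [h2, Pi.zero_apply, zero_smul, add_zero]
    refine ⟨_, J, T.G.extC fun p => ?_, fun i =>
      (se j).modeP h1 _ (mode_e1 j F σ i) _⟩
    obtain ⟨q, Ψ, hq, k1, k2, k3⟩ := psi T j p
    exact ((se j).linkP h1 _ (by linarith [hq.1]) k1 (val_e1 j F (h j).1 hq k2) _).trans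
      (k3 _ (ok_jac T J.jac))
  · obtain ⟨c', A, c0, c1, c2, h1, h2⟩ := fd j
    have J := (se j).j2
    have hd := diff_e1 j F (h j).2 (hb j)
    have e1 : σ.val (c1 0).1 = T.sL j _ := T.G.extC fun p => by
      obtain ⟨q, Ψ, hq, k1, k2, k3⟩ := psi T j p
      exact ((se j).linkJ h1 _ (by linarith [hq.1]) k1 (val_e1 j F (h j).1 hq k2) hd).trans
        (k3 _ (ok_jac T J.jac))
    have e2 : ∀ i : Fin 3, (c1 0).2 i = _ := fun i =>
      (se j).modeJ h1 _ (mode_e1 j F σ i) hd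
    refine ⟨_, J, fun α => ?_⟩
    rw [h2, Pi.zero_apply, map_zero, zero_add]
    exact ⟨by rw [Prod.smul_fst, map_smul, e1], fun i => by rw [← e2 i]; rfl⟩

end Crest.Agent.N250.R0

end
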