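import Crest.Agent.N250.R0.LEx
import Crest.Agent.N250.R0.LGood
import Crest.Agent.N250.R0.LEnd
import Crest.Agent.N250.R0.LJac
import Crest.Agent.N250.Wt.Mul

/-!
# Row 250 (helper94): the leaf `JaL` from the other leaves
-/

set_option autoImplicit false

namespace Crest.Agent.N250.R0

open WS

theorem Sg.ex {S : Mv} {T : St S} {P : Scale T.G → Prop} (h : Sg P) : ∃ σ, P σ :=
  let ⟨σ, hσ⟩ := T.G.exists_scale' T.G.mulS h
  ⟨σ, hσ σ rfl⟩

theorem jaL_of (hG : GoodL) (hE : EndL) (hJ : JacL) : JaL := by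
  intro S Λ hS hΛ e j
  obtain ⟨T, rfl, hT⟩ := exL S Λ hS hΛ e _ (hG S e)
  obtain ⟨σ, ⟨En, rb, C0, h1⟩, h2⟩ := ((hE S T hT).and (hJ S T hT)).ex
  obtain ⟨d, hd, -⟩ := (h2 En rb C0 h1).jc j
  exact ⟨T.R, d, by linarith [T.hR], hd.jac, hd.unb⟩

theorem jaL : JaL := jaL_of goodL endL jacL

end Crest.Agent.N250.R0
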