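import Crest.Agent.N250.Mc.Mt
import Crest.Agent.N250.Mc.End
import Crest.Agent.N250.Mc.Sm
import Crest.Agent.N250.Mc.EqL

/-!
# Row 250 (helper66): the leaf `MatL`
-/

set_option autoImplicit false

namespace Crest.Agent.N250.R0

theorem matL : MatL := fun S e =>
  (mt_of (fun _ h S e => (end_nr h S e).mono fun _ _ k g => (k g).imp fun _ k j z a b =>
      ⟨(k j z a b).1, (k j z a b).2.1⟩) (fun _ h S e => (w_nr h S e).mono fun _ _ k => k.1)
    (fun _ h S e => (w_nr h S e).mono fun _ _ k => k.2) S e).mono fun _ _ k g F =>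
    (k g F).mono fun _ k h => Mq.matD_of_mt g h.nl (k h.nl)

end Crest.Agent.N250.R0
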