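import Crest.Agent.N250.R0.Leaf
import Crest.Agent.N250.R0.CjE
import Crest.Agent.N250.Se.Dic
import Crest.Agent.N250.Nq.Main
import Crest.Agent.N250.Wt.All

/-!
# Row 250 (helper76): the nonlinearity of the glued system, `NLL`
-/

set_option autoImplicit false
open Set Filter Topology
open scoped ComplexConjugate
open Crest.GeometryTopology.MCF

noncomputable section

namespace Crest.Agent.N250.Ph

open WS Gc Nq R0
open Crest.Agent.N250.Gl (HolAt)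

section Jets

variable {X : Type} [TopologicalSpace X] [MeasurableSpace X] [BorelSpace X] [T2Space X]
  [SecondCountableTopology X] {G : Geo X} {σ : Scale G} {κ : Type} [Fintype κ] {ψ : κ → G.R}
  (A : σ.Jets ψ) (hψ : G.GrnS ψ) (ξ : σ.AA × (κ → ℂ))
include hψ

theorem J0_cj : A.J0 (σ.cj ξ.1, star ξ.2) = σ.cj (A.J0 ξ) := Scale.AA_ext (by
  rw [σ.val_cj, A.val0, A.val0, σ.wG_cj hψ, map_mul G.cj, G.cj_oR])

theorem J1_cj (a : Fin 3) : A.J1 a (σ.cj ξ.1, star ξ.2) = σ.cj (A.J1 a ξ) := Scale.AA_ext (by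
  rw [σ.val_cj, A.val1, A.val1, σ.wG_cj hψ, map_mul G.cj, G.cj_oR, G.cj_D])

theorem J2_cj (a b : Fin 3) : A.J2 a b (σ.cj ξ.1, star ξ.2) = σ.cj (A.J2 a b ξ) :=
  Scale.AA_ext (by
    rw [σ.val_cj, A.val2, A.val2, σ.wG_cj hψ, map_mul G.cj, G.cj_oR, G.cj_D, G.cj_D])

end Jets

variable {S : Mv} {T : St S} {F : Fa T} {σ : Scale T.G}

/-- forgetting the rotations -/
def pr (F : Fa T) (σ : Scale T.G) : F.Ξ σ →L[ℂ] σ.AA × (F.I → ℂ) :=
  (ContinuousLinearMap.fst ℂ _ _).prod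
    ((ContinuousLinearMap.fst ℂ _ _).comp (ContinuousLinearMap.snd ℂ _ _))

theorem pr_apply (ξ : F.Ξ σ) : pr F σ ξ = (ξ.1, ξ.2.1) := rfl

/-- the angles of one end -/
def ang (T : St S) (j : Fin T.p) : T.Bt →L[ℂ] (Fin 2 → ℂ) :=
  ContinuousLinearMap.pi fun i => ContinuousLinearMap.proj (j, i)

/-- the infinitesimal rotations -/
def m0L (T : St S) : T.Bt →L[ℂ] Mt (Fin T.p) :=
  ContinuousLinearMap.pi fun j => (Ro.m0L (Cj.fQ (T.e.Q j))).comp (ang T j)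

theorem m0L_apply (β : T.Bt) : m0L T β = T.m0 β := rfl

theorem diff_TT : Differentiable ℂ T.TT :=
  differentiable_pi.2 fun j => by
    have := (Ro.diff_TT (Cj.fQ (T.e.Q j))).comp (ang T j).differentiable
    exact this

theorem hasF_TT : HasFDerivAt T.TT (m0L T) 0 :=
  hasFDerivAt_pi.2 fun j =>
    HasFDerivAt.comp (0 : T.Bt) (g := Ro.TT (Cj.fQ (T.e.Q j))) (f := ang T j)
      (by rw [map_zero]; exact Ro.hasFDerivAt_TT _) (ang T j).hasFDerivAt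

theorem TT_zero : T.TT 0 = 0 := funext fun j => Ro.TT_zero (Cj.fQ (T.e.Q j))

theorem TT_star (β : T.Bt) : T.TT (star β) = star (T.TT β) :=
  funext fun j => funext fun c => funext fun d =>
    Ro.TT_conj (Ro.fQ_conj (T.e.Q j)) (fun i => β (j, i)) c d

/-- the multipliers -/
def cL (F : Fa T) (σ : Scale T.G) : F.Ξ σ →L[ℂ] (F.I → ℂ) := -(σ.cL F.grn).comp (pr F σ)

theorem cL_apply (ξ : F.Ξ σ) : cL F σ ξ = F.c ξ := rfl

variable (A : σ.Jets F.φ)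

/-- the variables of the nonlinearity -/
def jv (ξ : F.Ξ σ) : Vr σ (Fin T.p) F.I :=
  (A.J0 (pr F σ ξ), fun a => A.J1 a (pr F σ ξ), fun a b => A.J2 a b (pr F σ ξ), T.TT ξ.2.2,
    cL F σ ξ)

theorem diff_jv : Differentiable ℂ (jv A) := by
  have := diff_TT (T := T)
  unfold jv
  fun_prop

theorem jv_zero : jv A 0 = 0 := by
  simp only [jv, map_zero, Prod.snd_zero, TT_zero]; rfl

theorem tendsto_jv : Tendsto (jv A) (𝓝 0) (𝓝 0) :=
  (diff_jv A).continuous.tendsto' _ _ (jv_zero A)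

theorem jv_cj (ξ : F.Ξ σ) : jv A (F.cj ξ) = cjV (jv A ξ) :=
  Prod.ext (J0_cj A F.grn (pr F σ ξ)) (Prod.ext (funext (J1_cj A F.grn (pr F σ ξ)))
    (Prod.ext (funext fun a => funext (J2_cj A F.grn (pr F σ ξ) a))
      (Prod.ext (TT_star _) (CjE.c_cj F ξ))))

theorem at_jv (ξ : F.Ξ σ) {p : S.sl 0} (hp : T.G.ζ.1 p = 1) : At (jv A ξ) (F.w ξ) p :=
  at_jets A (pr F σ ξ) _ _ hp

theorem prT_fd (ξ : F.Ξ σ) : Dt.prT σ _ _ (fderiv ℂ (jv A) 0 ξ) = T.m0 ξ.2.2 := by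
  have h1 := (Dt.prT σ _ _).hasFDerivAt.comp 0 (diff_jv A 0).hasFDerivAt
  have h2 : HasFDerivAt (fun ξ : F.Ξ σ => T.TT ξ.2.2) _ 0 :=
    HasFDerivAt.comp (0 : F.Ξ σ) (g := T.TT) (f := fun ξ : F.Ξ σ => ξ.2.2) hasF_TT
      hasFDerivAt_snd.snd
  exact DFunLike.congr_fun (h1.unique h2) ξ

theorem ρ_LL_ph (ξ : F.Ξ σ) (p : S.sl 0) : (T.G.ρ.1 p : ℂ) * ((T.G.SC.LL (F.w ξ)).1 p +
    (F.D.ph (F.c ξ)).1 p) = (σ.val ξ.1).1 p := by
  have : T.G.oR T.G.ρ * (T.G.SC.LL (F.w ξ) + F.D.ph (F.c ξ)) = σ.val ξ.1 := by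
    rw [mul_add, F.ρ_LL_w, Dt.ph, Finset.mul_sum]
    simp only [map_mul, mul_smul_comm]
    exact sub_add_cancel _ _
  rw [← this]; rfl

variable (o : F.D.Ok σ.ε)
include A o

theorem val_nq : ∀ᶠ ξ in 𝓝 (0 : F.Ξ σ), (σ.val (F.D.NQ σ (jv A ξ))).1 = F.nl ξ ∧
    ∀ p, T.G.ζ.1 p = 1 → F.D.Nd (F.w ξ) (T.TT ξ.2.2) (F.c ξ) p := by
  filter_upwards [(tendsto_jv A).eventually (Dt.ev_NQ F.good o)] with ξ h
  refine ⟨funext fun p => ?_, fun p hp => (h _ _ (at_jv A ξ hp)).1⟩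
  by_cases hp : T.χ'.1 p = 0
  · rw [Dt.NQ_off F.good o _ hp, Fa.nl, hp, Complex.ofReal_zero, zero_mul]
  · rw [(h _ _ (at_jv A ξ (F.good.cut p hp))).2, Fa.nl, ← ρ_LL_ph, add_assoc, mul_assoc, mul_add]
    rfl

theorem NL_eq : ∀ᶠ ξ in 𝓝 (0 : F.Ξ σ), F.NL ξ = F.D.NQ σ (jv A ξ) :=
  (val_nq A o).mono fun ξ h => by
    rw [Fa.NL, ← h.1, T.sm_coe]
    exact Scale.AA_ext (EC.val_toA (σ.NN_val _))

theorem hasF_NL : HasFDerivAt (F.NL (σ := σ))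
    ((-(F.D.rot σ).comp (Dt.prT σ _ _)).comp (fderiv ℂ (jv A) 0)) 0 :=
  (HasFDerivAt.comp (0 : F.Ξ σ) (g := F.D.NQ σ) (f := jv A)
    (by rw [jv_zero]; exact Dt.fd_NQ F.good o) (diff_jv A 0).hasFDerivAt).congr_of_eventuallyEq
    (NL_eq A o)

theorem fd_NL (ξ : F.Ξ σ) : fderiv ℂ F.NL 0 ξ = -F.D.rot σ (T.m0 ξ.2.2) := by
  rw [(hasF_NL A o).fderiv, ← prT_fd A]; rfl

theorem nlD : F.NLD σ where
  val := by
    filter_upwards [val_nq A o, NL_eq A o] with ξ h e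
    exact ⟨e ▸ h.1, h.2⟩
  hol := by
    filter_upwards [(NL_eq A o).eventually_nhds,
      (tendsto_jv A).eventually (Dt.hol_NQ F.good o)] with ξ e h
    exact (h.comp ξ (diff_jv A ξ)).congr_of_eventuallyEq e
  zero := by rw [(NL_eq A o).self_of_nhds, jv_zero, Dt.NQ_zero F.good o]
  fd ξ := by rw [fd_NL A o, map_neg, Dt.val_rot o]; rfl
  cj := by
    have hc : Tendsto (F.cj (σ := σ)) (𝓝 0) (𝓝 0) :=
      tendsto_zero_iff_norm_tendsto_zero.2 (by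
        simp only [CjE.norm_cj' F]; exact tendsto_norm_zero)
    filter_upwards [NL_eq A o, hc.eventually (NL_eq A o),
      (tendsto_jv A).eventually (Dt.cj_NQ F.good o)] with ξ h1 h2 h3
    rw [h1, h2, jv_cj, h3]

end Crest.Agent.N250.Ph

namespace Crest.Agent.N250.R0

/-- the jets of the Green operator exist -/
theorem Fa.sg_jo {S : Mv} {T : St S} (F : Fa T) : Sg fun σ : WS.Scale T.G =>
    Nonempty (σ.Jets F.φ) ∧ F.D.Ok σ.ε := by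
  filter_upwards [F.grn.nonempty_jets T.G.mainS, F.good.ok] with ε h1 h2 σ e
  exact ⟨h1 σ e, e ▸ h2⟩

theorem nlL : NLL := fun _ _ F => F.sg_jo.mono fun _ ⟨⟨A⟩, o⟩ => Ph.nlD A o

end Crest.Agent.N250.R0

end
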