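import Crest.Agent.N250.R0.Leaf

/-!
# Row 250 (helper64): the system `Φ` from its three nonlinear components
-/

set_option autoImplicit false
open MeasureTheory Set Filter Topology
open scoped ComplexConjugate
open Crest.GeometryTopology.MCF

noncomputable section

namespace Crest.Agent.N250.R0

open WS Wr B1 Gc
open Crest.Agent.N250.Gl (HolAt)

variable {S : Mv}

namespace Fa

variable {T : St S} (F : Fa T) (σ : Scale T.G)

/-- the linear shape of `Φ` -/
def LΦ : (F.Ξ σ × (Fin F.n → ℂ) × T.WW σ) × σ.AA × (F.I → ℂ) × T.BB →L[ℂ] F.HH σ where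
  toFun u := (u.1.1.1 - u.2.1 - ∑ j, (u.1.2.2 j).1, fun k => u.2.2.1 (.inl k) - u.1.2.1 k,
    fun q => Wi.coL _ ((q.2 : ℤ) - 1) (u.2.2.2 q.1) - (u.1.2.2 q.1).2 q.2)
  map_add' u v := by
    refine Prod.ext ?_ (Prod.ext (funext fun k => ?_) (funext fun q => ?_))
    · simp only [Prod.fst_add, Prod.snd_add, Pi.add_apply, Finset.sum_add_distrib]; ring
    · simp only [Prod.fst_add, Prod.snd_add, Pi.add_apply]; ring
    · simp only [Prod.fst_add, Prod.snd_add, Pi.add_apply, map_add]; ring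
  map_smul' c u := by
    refine Prod.ext ?_ (Prod.ext (funext fun k => ?_) (funext fun q => ?_))
    · simp only [Prod.smul_fst, Prod.smul_snd, Pi.smul_apply, RingHom.id_apply, smul_sub,
        Finset.smul_sum]
    · simp only [Prod.smul_fst, Prod.smul_snd, Pi.smul_apply, RingHom.id_apply, smul_sub]
    · simp only [Prod.smul_fst, Prod.smul_snd, Pi.smul_apply, RingHom.id_apply, smul_sub, map_smul]
  cont := by fun_prop

variable {σ}

theorem Φ_eq (u : F.Ξ σ × (Fin F.n → ℂ) × T.WW σ) :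
    F.Φ u = F.LΦ σ (u, F.NL u.1, F.II u.1, F.dat u.1) := rfl

theorem hasF_Φ {u : F.Ξ σ × (Fin F.n → ℂ) × T.WW σ} (h1 : DifferentiableAt ℂ F.NL u.1)
    (h2 : DifferentiableAt ℂ F.II u.1) (h3 : DifferentiableAt ℂ F.dat u.1) :
    HasFDerivAt F.Φ ((F.LΦ σ).comp ((ContinuousLinearMap.id ℂ _).prod
      (((fderiv ℂ F.NL u.1).prod ((fderiv ℂ F.II u.1).prod (fderiv ℂ F.dat u.1))).comp
        (ContinuousLinearMap.fst ℂ _ _)))) u :=
  (F.LΦ σ).hasFDerivAt.comp u ((hasFDerivAt_id u).prodMk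
    ((h1.hasFDerivAt.prodMk (h2.hasFDerivAt.prodMk h3.hasFDerivAt)).comp u hasFDerivAt_fst))

theorem phiD_of (h1 : F.DatD σ) (h2 : F.IID σ) (h3 : F.NLD σ) : F.PhiD σ where
  dat := h1
  ii := h2
  nl := h3
  hol := by
    have t : Tendsto (Prod.fst : F.Ξ σ × (Fin F.n → ℂ) × T.WW σ → F.Ξ σ) (𝓝 0) (𝓝 0) :=
      continuous_fst.tendsto 0
    filter_upwards [t.eventually h1.hol, t.eventually h2.hol, t.eventually h3.hol] with u a b c
    exact (F.hasF_Φ c b a).differentiableAt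
  zero := by
    rw [Φ_eq, Prod.fst_zero, h1.zero, h2.zero, h3.zero]
    exact map_zero (F.LΦ σ)
  fd ξ y w := by
    rw [(F.hasF_Φ (u := 0) h3.hol.self_of_nhds h2.hol.self_of_nhds h1.hol.self_of_nhds).fderiv,
      ← h2.fd ξ]
    rfl
  cj := by
    filter_upwards [h2.cj, h3.cj] with ξ a b y w h
    have e1 : ξ.1 - F.NL ξ - ∑ j, (w j).1 = 0 := congrArg Prod.fst h
    have e2 : ∀ k, F.II ξ (.inl k) - y k = 0 := congrFun (congrArg (fun v => v.2.1) h)
    have e3 : ∀ q : Fin T.p × Fin 3, Wi.co (F.dat ξ q.1) ((q.2 : ℤ) - 1) - (w q.1).2 q.2 = 0 :=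
      congrFun (congrArg (fun v => v.2.2) h)
    refine Prod.ext ?_ (Prod.ext (funext fun k => ?_) (funext fun q => ?_))
    · change σ.cj ξ.1 - F.NL (F.cj ξ) - ∑ j, σ.cj (w j).1 = 0
      rw [b, ← map_sum, ← map_sub, ← map_sub, e1, map_zero]
    · change F.II (F.cj ξ) (.inl k) - star (y k) = 0
      rw [a, Pi.star_apply, ← star_sub, e2, star_zero]
    · change Wi.co (F.dat (F.cj ξ) q.1) ((q.2 : ℤ) - 1) - conj ((w q.1).2 q.2.rev) = 0
      have e : -((q.2 : ℤ) - 1) = ((q.2.rev : Fin 3) : ℤ) - 1 := by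
        generalize q.2 = i
        fin_cases i <;> rfl
      rw [h1.cj, St.cB, Cj.co_cj (Cj.ev_omP 2), e, sub_eq_zero.1 (e3 (q.1, q.2.rev))]
      exact sub_self _

end Fa

theorem phiL_of (h1 : DatL) (h2 : IIL) (h3 : NLL) : PhiL := fun S T F =>
  (((h1 S T F).and (h2 S T F)).and (h3 S T F)).mono fun _ h => F.phiD_of h.1.1 h.1.2 h.2

end Crest.Agent.N250.R0

end
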