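import Crest.Agent.N250.Rm.Small
import Crest.Agent.N250.Rp.Pt
import Crest.Agent.N250.R0.CjR
import Crest.Agent.N250.Cn.Amb

/-!
# Row 250 (helper50): the leaf `RealL`
-/

set_option autoImplicit false
open MeasureTheory Set Filter Topology
open Crest.GeometryTopology.MCF

noncomputable section

namespace Crest.Agent.N250.Rm

open WS B1 R0
open Crest.Agent.N250.B2 (aa ofR)
open Crest.Agent.N250.Gi (KK)

variable {S : Mv} {T : St S} (F : Fa T) {σ : Scale T.G}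

theorem rho_le (p : S.sl 0) : T.G.ρ.1 p ≤ 1 + ‖(p : E)‖ :=
  (Wr.rho_le_rho0 _ _).trans (Wr.rho0_le _)

/-- small unknowns have small graph functions and rotations -/
theorem sz_small (Je : σ.Jets F.φ) {s : ℝ} (hs : 0 < s) : ∃ ρ, 0 < ρ ∧ ∀ ξ : F.Ξ σ, ‖ξ‖ < ρ →
    ‖T.TT ξ.2.2‖ ≤ s ∧ ∀ p, T.G.ζ.1 p = 1 → Sz (F.w ξ) s p := by
  obtain ⟨C2, c2, h2⟩ := sz_wG Je
  obtain ⟨ρ1, ρ10, h3⟩ := TT_small T hs
  refine ⟨min ρ1 (s / C2), lt_min ρ10 (by positivity), fun ξ hξ => ?_⟩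
  rw [lt_min_iff] at hξ
  have b1 : ‖ξ.2.2‖ ≤ ‖ξ‖ := (norm_snd_le ξ.2).trans (norm_snd_le ξ)
  have b2 : ‖(ξ.1, ξ.2.1)‖ ≤ ‖ξ‖ := norm_prod_le_iff.2
    ⟨norm_fst_le ξ, (norm_fst_le ξ.2).trans (norm_snd_le ξ)⟩
  have b3 : C2 * ‖(ξ.1, ξ.2.1)‖ ≤ s := by
    have := b2.trans hξ.2.le
    rwa [le_div_iff₀ c2, mul_comm] at this
  exact ⟨(h3 _ (b1.trans_lt hξ.1)).le, fun p hp => (h2 _ _ hp).mono b3⟩

theorem rp_small (Je : σ.Jets F.φ) {δ : ℝ} (hδ : 0 < δ) : ∃ ρ, 0 < ρ ∧ ∀ ξ : F.Ξ σ, ‖ξ‖ < ρ →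
    ∀ p : S.sl 0, T.G.ζ.1 p = 1 → ‖(F.w ξ).1 p‖ < δ * (1 + ‖(p : E)‖) ∧
      ‖rX T.P (F.Y ξ) (p, 0) - p‖ ≤ (5 * (T.R + 4))⁻¹ * (1 + ‖(p : E)‖) ∧ T.G.Cl (F.Y ξ) p := by
  obtain ⟨C1, c1, h1⟩ := sz_Xh F.good
  obtain ⟨η, η0, η1, h2⟩ := F.good.cl
  have R0 := T.R_pos
  have m0 : 0 < (5 * (T.R + 4))⁻¹ / (3 * C1) := by positivity
  obtain ⟨ρ, ρ0, h⟩ := sz_small F Je (lt_min (lt_min η0 (half_pos hδ)) m0)
  refine ⟨ρ, ρ0, fun ξ hξ p hp => ?_⟩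
  obtain ⟨a, b⟩ := h ξ hξ
  set s := min (min η (δ / 2)) ((5 * (T.R + 4))⁻¹ / (3 * C1)) with hs
  have s1 : s ≤ η := (min_le_left _ _).trans (min_le_left _ _)
  have s2 : s ≤ δ / 2 := (min_le_left _ _).trans (min_le_right _ _)
  have s3 : 3 * (C1 * s) ≤ (5 * (T.R + 4))⁻¹ := by
    have := min_le_right (min η (δ / 2)) ((5 * (T.R + 4))⁻¹ / (3 * C1))
    rw [← hs, le_div_iff₀ (by positivity)] at this
    linarith only [this]
  have n0 : 0 < 1 + ‖(p : E)‖ := by positivity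
  refine ⟨?_, ?_, h2 _ _ p hp (a.trans s1) ((b p hp).mono s1).h0 ((b p hp).mono s1).h1⟩
  · refine ((b p hp).mono s2).h0.trans_lt ((mul_le_mul_of_nonneg_left (rho_le p)
      (half_pos hδ).le).trans_lt ?_)
    exact mul_lt_mul_of_pos_right (half_lt_self hδ) n0
  · exact (core0 (q := (p, 0)) p.2 (h1 _ _ _ p hp (s1.trans η1) a (b p hp))).trans
      (mul_le_mul_of_nonneg_right s3 n0.le)

variable {F} {N : ℕ} {ξ : ℂ × (F.I → ℂ) → F.Ξ σ} {ρ r X1 θ : ℝ}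

theorem tail (h : F.Gf N ξ ρ r X1 θ) {X : ℝ} (hX : X1 < X) {w : F.I → ℂ}
    (hw : w ∈ DomA r (KK N - 1 / 4) X) : (F.Aq N ξ (X, w)).re / (4 * Real.pi) ≤
      (Gi.FFo N (F.Aq N ξ) (X, w)).re / (4 * Real.pi) +
        (350 * T.p + 4 * Real.pi) * Real.exp (-(1 / 4) * X ^ 2) := by
  have hp := Real.pi_pos
  have h1 : ‖∑ j, Gi.Sj N j ((X : ℂ), w)‖ ≤ T.p * (700 * Real.exp (-X ^ 2 / 4)) := by
    refine (norm_sum_le _ _).trans ((Finset.sum_le_card_nsmul _ _ _ fun j _ =>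
      norm_S_le (by linarith [h.X1_ge]) (CjE.gf_hj h (CjE.gf_om h hX hw) j)).trans_eq ?_)
    simp
  have h2 := (Complex.re_le_norm _).trans h1
  have e : (Gi.FFo N (F.Aq N ξ) (X, w)).re =
      (F.Aq N ξ (X, w)).re - 2 * Real.pi * (∑ j, Gi.Sj N j ((X : ℂ), w)).re := by
    rw [Gi.FFo, Complex.sub_re, show (2 * Real.pi : ℂ) = ((2 * Real.pi : ℝ) : ℂ) by simp,
      Complex.re_ofReal_mul]
  rw [e, sub_div, show -(1 / 4) * X ^ 2 = -X ^ 2 / 4 by ring,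
    show ∀ u : ℝ, 2 * Real.pi * u / (4 * Real.pi) = u / 2 from fun u => by field_simp; ring]
  nlinarith [Real.exp_pos (-X ^ 2 / 4)]

theorem c_le {n : ℕ} {κ : Type} [Fintype κ] (τ : Fin n ≃ κ) {c : κ → ℂ} (h : ∀ k, (c k).im = 0) :
    ‖c‖ ≤ 4 * Real.pi * ‖fun i => (c (τ i)).re / (4 * Real.pi)‖ := by
  have hp : 0 < 4 * Real.pi := by positivity
  refine (pi_norm_le_iff_of_nonneg (by positivity)).2 fun k => ?_
  have := norm_le_pi_norm (fun i => (c (τ i)).re / (4 * Real.pi)) (τ.symm k)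
  rw [Equiv.apply_symm_apply, norm_div, Real.norm_of_nonneg hp.le, div_le_iff₀' hp] at this
  rwa [← Complex.abs_re_eq_norm.2 (h k)]

theorem realD (hT : T.Good) {δ : ℝ} {g : F.I → E → ℝ} (hA : F.Am δ g) (Je : σ.Jets F.φ) :
    F.RealD σ g := by
  obtain ⟨ρ, ρ0, h⟩ := rp_small F Je hA.δ_pos
  refine ⟨ρ, ρ0, fun N ξ r X1 θ hG => ?_⟩
  obtain ⟨δ2, b2, h2⟩ := pt_dom (ι := Fin F.n) (κ := Fin T.p) hG.r_pos (KK N - 1 / 4)
    (max X1 (T.R + 2))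
  refine realM_abs (e := T.e) Rl.solS_holds T.P.shr
    (d := fun X x => dd F N X (aa (ofR x)) (ξ (X, ofR x)))
    (c := fun X x i => (F.c (ξ (X, ofR x)) (finSumFinEquiv.symm i)).re / (4 * Real.pi))
    ⟨by linarith [T.hR], by linarith, fun i => (hA.cons.sm i).continuous, Cn2.am_ball hA,
      ⟨δ2, 350 * T.p + 4 * Real.pi, 1 / 4, b2, by norm_num, fun X x p => ?_⟩,
      fun t ht => small_gf hT Je hG ht⟩
  obtain ⟨x1, x2⟩ := h2 X x p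
  have x3 : X1 < X := (le_max_left _ _).trans_lt x1
  have m := CjE.gf_om hG x3 x2
  have f := CjE.gf_fix hG x3 x2
  have k := h _ (hG.small _ m).1
  have rp : Rp.RP F N X (aa (ofR x)) (ξ (X, ofR x)) δ :=
    ⟨CjE.real_w f, CjE.real_c f, CjE.real_β f, CjE.gf_vj hG x3 x2, (hG.sv _ m).dom,
      (hG.mat _ m).mt, (hG.mat _ m).eq, fun p hp => (k p hp).1, fun p hp => (k p hp).2.1,
      fun p hp => (k p hp).2.2⟩
  refine ⟨sol_le (rp.sol hA.sm (Cn2.am_lin hA) (fun k y hy => (hA.supp k y hy).2)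
    finSumFinEquiv.symm (CjE.sz hT) hA.δ_pos.le ((le_max_right _ _).trans x1.le)) (tail hG x3 x2),
    (c_le finSumFinEquiv.symm (CjE.real_c f)).trans
      (mul_le_mul_of_nonneg_right (le_add_of_nonneg_left (by positivity)) (norm_nonneg _))⟩

end Crest.Agent.N250.Rm

namespace Crest.Agent.N250.R0

theorem realL : RealL := fun _ T hT F _ _ hA => by
  have j : Sg fun σ : WS.Scale T.G => Nonempty (σ.Jets F.φ) := F.grn.nonempty_jets T.G.mainS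
  exact j.mono fun _ k _ => Rm.realD hT hA k.some

end Crest.Agent.N250.R0

end
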