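import Crest.Agent.N250.Vr.Inst
import Crest.Agent.N250.Fv.Tqc

/-!
# Row 250 (helper97): the first variation of the glued action, `VarL`
-/

set_option autoImplicit false
open MeasureTheory Set Filter Topology Metric
open Crest.GeometryTopology.MCF

noncomputable section

namespace Crest.Agent.N250.R0

open WS Wr B1 Gc
open Crest.Agent.N250.Gi (KK)

variable {S : Mv} {T : St S} {F : Fa T} {σ : Scale T.G} {s : ℝ}

namespace LV

theorem dII (h : F.Vc σ s) {z : F.Ξ σ} (hz : ‖z‖ < s) (k : F.I) :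
    DifferentiableAt ℂ (fun z : F.Ξ σ => F.II z k) z :=
  (h.hf k).diffOn.differentiableAt (isOpen_ball.mem_nhds (mem_ball_zero_iff.2 hz))

/-- the core part -/
theorem core (h : F.Vc σ s) {z : F.Ξ σ} (hz : ‖z‖ < s) {N : ℕ} {X : ℂ} {a : Fin T.p → ℂ}
    (M : F.Mat N X a z) (v : F.Ξ σ) : fderiv ℂ (fun z => T.AC (F.Y z)) z v =
      ∑ k, F.c z k * fderiv ℂ (fun z : F.Ξ σ => F.II z k) z v -
        ∫ p, T.G.fluxC (T.G.oR T.ζA) (F.Y z) (F.dY z v) p ∂T.G.M.mu := by
  rw [h.fAC hz v]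
  exact congrArg (· - _) ((Vc.bk M fun _ _ hp c => F.dY_core z v hp c).fam (w := F.w)
    (T := fun z => T.TT z.2.2) (mem_ball_zero_iff.2 hz) v h.hf
    (fun k p hp => ⟨(h.fw p (F.φ_Kz k hp) z).eq v, (h.fw p (F.φ_Kz k hp) z).diff⟩)
    (fun k p hp c => (h.fY p (F.φ_Kz k hp) z c).eq v)
    fun k p hp a c => (h.fJ p (F.φ_Kz k hp) z a c).eq v).2

theorem varD (hG : T.Good) (h : F.Vc σ s) : F.VarD σ := by
  refine ⟨min s 1, lt_min h.r_pos one_pos, fun N ξ r X1 θ g => ?_⟩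
  obtain ⟨CT, hT⟩ := Vc.tq_bd g hG (min_le_right _ _)
  refine ⟨CT, fun X hX w hw δ v => ⟨_, fun j => (norm_neg _).trans_le (hT X hX w hw j _), ?_⟩⟩
  have hq := Vc.mem_Om g hX hw
  have hz := (g.small _ hq).1.trans_le (min_le_left _ _)
  have hd := Vc.d_ξ g hq
  rw [Vc.fd_A g hq hG (h.dAC hz) (δ, v) (fun p hp c => by
    simpa only [zero_smul, add_zero] using h.cY hp (Vc.hd_line hd (δ, v)) c)
    (core h hz (g.mat _ hq) _)]
  refine congrArg (· + _) (Finset.sum_congr rfl fun k _ => congrArg _ ?_)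
  rw [fderiv_pi (φ := fun k q => F.II (ξ q) k) fun k => (dII h hz k).comp _ hd]
  exact (congrArg (fun L => L (δ, v)) (fderiv_comp _ (dII h hz k) hd)).symm

end LV

/-- **first variation** -/
theorem varL : VarL := fun _ _ hG F => F.vc.mono fun _ h _ => h.elim fun _ h => LV.varD hG h

end Crest.Agent.N250.R0

end
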